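import Vale.Agent.P058.GroupRing

/-!
Formal combinations of columns with small negative part.
-/

namespace Vale.Agent.P058

open Matrix

set_option linter.unusedSectionVars false

variable {ι : Type} [Fintype ι] [DecidableEq ι] {D : Type}

/-- Squared length of the linear part. -/
def sqn (u : Col ι) : ℝ := u.1 ⬝ᵥ u.1

lemma sqn_nonneg (u : Col ι) : 0 ≤ sqn u := Finset.sum_nonneg (fun _ _ => mul_self_nonneg _)

/-- Gram matrix of a formal combination. -/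
noncomputable def Gam : GR (Col ι) →+ Matrix ι ι ℝ := lin gram

lemma Gam_br (u : Col ι) : Gam (br u) = gram u := lin_br _ _

lemma trace_Gam_ms (W : Multiset (Col ι)) : (Gam (ms W)).trace = (W.map sqn).sum := by
  induction W using Multiset.induction_on with
  | empty => simp [ms]
  | cons x W ih =>
    rw [Multiset.map_cons, ms_cons, map_add, trace_add, ih, Gam_br, trace_gram,
      Multiset.sum_cons, sqn]

/-- The negative part has cost at most `t`. -/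
def Rep (ρ : GR (Col ι)) (t : ℝ) : Prop :=
  ∃ Wp Wm : Multiset (Col ι), ρ = ms Wp - ms Wm ∧ (Wm.map sqn).sum ≤ t

lemma sum_sqn_nonneg (W : Multiset (Col ι)) : 0 ≤ (W.map sqn).sum :=
  Multiset.sum_nonneg (fun x hx => by
    obtain ⟨u, _, rfl⟩ := Multiset.mem_map.mp hx; exact sqn_nonneg u)

lemma Rep.nonneg {ρ : GR (Col ι)} {t : ℝ} (h : Rep ρ t) : 0 ≤ t := by
  obtain ⟨_, Wm, _, h2⟩ := h
  exact (sum_sqn_nonneg Wm).trans h2

lemma Rep.mono {ρ : GR (Col ι)} {t t' : ℝ} (h : Rep ρ t) (ht : t ≤ t') : Rep ρ t' := by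
  obtain ⟨Wp, Wm, h1, h2⟩ := h
  exact ⟨Wp, Wm, h1, h2.trans ht⟩

lemma Rep.zero : Rep (0 : GR (Col ι)) 0 := ⟨0, 0, by simp, by simp⟩

lemma Rep.add {ρ σ : GR (Col ι)} {t t' : ℝ} (h : Rep ρ t) (h' : Rep σ t') :
    Rep (ρ + σ) (t + t') := by
  obtain ⟨Wp, Wm, h1, h2⟩ := h
  obtain ⟨Vp, Vm, g1, g2⟩ := h'
  refine ⟨Wp + Vp, Wm + Vm, by rw [ms_add, ms_add, h1, g1]; ring, ?_⟩
  rw [Multiset.map_add, Multiset.sum_add]
  exact add_le_add h2 g2

lemma Rep.br (u : Col ι) : Rep (br u) 0 := ⟨{u}, 0, by simp [ms], by simp⟩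

lemma Rep.neg_br (u : Col ι) : Rep (-(Vale.Agent.P058.br u)) (sqn u) :=
  ⟨0, {u}, by simp [ms], by simp⟩

lemma Rep.neg {ρ : GR (Col ι)} {t : ℝ} (h : Rep ρ t) : Rep (-ρ) ((Gam ρ).trace + t) := by
  obtain ⟨Wp, Wm, h1, h2⟩ := h
  refine ⟨Wm, Wp, by rw [h1]; ring, ?_⟩
  rw [h1, map_sub, trace_sub, trace_Gam_ms, trace_Gam_ms]
  linarith

lemma exists_rep (ρ : GR (Col ι)) : ∃ t, Rep ρ t := by
  induction ρ using gr_induction with
  | h0 => exact ⟨_, Rep.zero⟩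
  | hbr x => exact ⟨_, Rep.br x⟩
  | hadd x y hx hy => obtain ⟨_, hx⟩ := hx; obtain ⟨_, hy⟩ := hy; exact ⟨_, hx.add hy⟩
  | hneg x hx => obtain ⟨_, hx⟩ := hx; exact ⟨_, hx.neg⟩

lemma Rep.nat_mul {ρ : GR (Col ι)} {t : ℝ} (h : Rep ρ t) (n : ℕ) :
    Rep ((n : GR (Col ι)) * ρ) (n * t) := by
  induction n with
  | zero => simpa using Rep.zero
  | succ n ih =>
    have := ih.add h
    push_cast
    rwa [add_mul, add_mul, one_mul, one_mul]

lemma Gam_nat_mul (ρ : GR (Col ι)) (n : ℕ) : Gam ((n : GR (Col ι)) * ρ) = (n : ℝ) • Gam ρ := by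
  rw [← nsmul_eq_mul, map_nsmul, Nat.cast_smul_eq_nsmul]

lemma Rep.scale {ρ : GR (Col ι)} {t : ℝ} (h : Rep ρ t) (l : ℕ) :
    Rep (push (nsmulAddMonoidHom l) ρ) ((l : ℝ) ^ 2 * t) := by
  obtain ⟨Wp, Wm, h1, h2⟩ := h
  refine ⟨_, _, by rw [h1, map_sub, push_ms, push_ms], ?_⟩
  rw [Multiset.map_map]
  have : (sqn ∘ ⇑(nsmulAddMonoidHom l : Col ι →+ Col ι)) = fun u => (l : ℝ) ^ 2 * sqn u := by
    funext u
    simp only [Function.comp, nsmulAddMonoidHom_apply, sqn, Prod.smul_fst]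
    rw [← Nat.cast_smul_eq_nsmul ℝ, smul_dotProduct, dotProduct_smul, smul_eq_mul, smul_eq_mul]
    ring
  rw [this, Multiset.sum_map_mul_left]
  exact mul_le_mul_of_nonneg_left h2 (by positivity)

lemma Gam_scale (ρ : GR (Col ι)) (l : ℕ) :
    Gam (push (nsmulAddMonoidHom l) ρ) = ((l : ℝ) ^ 2) • Gam ρ := by
  induction ρ using gr_induction with
  | h0 => simp
  | hbr x =>
    rw [push_br, Gam_br, Gam_br, nsmulAddMonoidHom_apply, ← Nat.cast_smul_eq_nsmul ℝ, gram_smul]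
  | hadd x y hx hy => rw [map_add, map_add, map_add, hx, hy, smul_add]
  | hneg x hx => rw [map_neg, map_neg, map_neg, hx, smul_neg]

/-- Constant columns. -/
def cst (ι : Type) : ℝ →+ Col ι := AddMonoidHom.inr _ _

lemma Gam_br_cst_mul (c : ℝ) (ρ : GR (Col ι)) : Gam (br (cst ι c) * ρ) = Gam ρ := by
  induction ρ using gr_induction with
  | h0 => simp
  | hbr x => rw [← br_add, Gam_br, Gam_br]; simp [gram, cst]
  | hadd x y hx hy => rw [mul_add, map_add, map_add, hx, hy]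
  | hneg x hx => rw [mul_neg, map_neg, map_neg, hx]

lemma Rep.br_cst_mul {ρ : GR (Col ι)} {t : ℝ} (h : Rep ρ t) (c : ℝ) :
    Rep (Vale.Agent.P058.br (cst ι c) * ρ) t := by
  obtain ⟨Wp, Wm, h1, h2⟩ := h
  refine ⟨_, _, by rw [h1, mul_sub, br_mul_ms, br_mul_ms], ?_⟩
  rw [Multiset.map_map]
  have : (sqn ∘ fun u : Col ι => cst ι c + u) = sqn := by
    funext u; simp [sqn, cst]
  rwa [this]

lemma Gam_ms_cst_mul (Φ : Multiset ℝ) (ρ : GR (Col ι)) :
    Gam (push (cst ι) (ms Φ) * ρ) = (Φ.card : ℝ) • Gam ρ := by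
  induction Φ using Multiset.induction_on with
  | empty => simp [ms]
  | cons c Φ ih =>
    rw [ms_cons, map_add, add_mul, map_add, ih, push_br, Gam_br_cst_mul, Multiset.card_cons]
    push_cast
    rw [add_smul, one_smul, add_comm]

lemma Rep.ms_cst_mul {ρ : GR (Col ι)} {t : ℝ} (h : Rep ρ t) (Φ : Multiset ℝ) :
    Rep (push (cst ι) (ms Φ) * ρ) (Φ.card * t) := by
  induction Φ using Multiset.induction_on with
  | empty => simpa [ms] using Rep.zero
  | cons c Φ ih =>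
    rw [ms_cons, map_add, add_mul, push_br, Multiset.card_cons]
    refine ((h.br_cst_mul c).add ih).mono (le_of_eq ?_)
    push_cast; ring

/-- Evaluation on the group ring. -/
noncomputable def evR (x : ι → ℝ) : GR (Col ι) →+* GR ℝ := push (ev x).toAddMonoidHom

lemma evR_br (x : ι → ℝ) (u : Col ι) : evR x (br u) = br (ev x u) := push_br _ _

lemma evR_cst (x : ι → ℝ) (r : GR ℝ) : evR x (push (cst ι) r) = r := by
  rw [evR, push_push]
  have : ((ev x).toAddMonoidHom).comp (cst ι) = AddMonoidHom.id ℝ := by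
    ext c; simp [cst, ev_apply]
  rw [this, push_id]

lemma evR_scale (x : ι → ℝ) (l : ℕ) (ρ : GR (Col ι)) :
    evR x (push (nsmulAddMonoidHom l) ρ) = push (nsmulAddMonoidHom l) (evR x ρ) := by
  rw [evR, push_push, push_push]
  congr 2
  refine AddMonoidHom.ext (fun u => ?_)
  exact map_nsmul (ev x) l u

/-- Approximate balance up to order `k`. -/
def QQ (a : D → ι → ℝ) (k : ℕ) : Prop :=
  ∀ ε : ℝ, 0 < ε → ∃ (ρ : GR (Col ι)) (μ : ℝ), 0 < μ ∧ Gam ρ = μ • (1 : Matrix ι ι ℝ) ∧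
    Rep ρ (ε * μ) ∧ ∀ i, evR (a i) ρ ∈ aug ℝ ^ k

variable {a : D → ι → ℝ}

lemma QQ.step {k : ℕ} (hk : 3 ≤ k) (h : QQ a k) : QQ a (k + 1) := by
  intro ε hε
  obtain ⟨ρ, μ, hμ, h1, h2, h3⟩ := h (ε / 4) (by positivity)
  obtain ⟨l, hl⟩ := exists_nat_ge (2 + (Fintype.card ι + 5 * ε / 4) / (3 * ε / 4))
  have hd : (0 : ℝ) ≤ (Fintype.card ι + 5 * ε / 4) / (3 * ε / 4) := by positivity
  have hl2 : (2 : ℝ) ≤ l := by linarith
  have hl3 : (Fintype.card ι + 5 * ε / 4) ≤ l * (3 * ε / 4) := by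
    rw [← div_le_iff₀ (by positivity)]; linarith
  have hx : (l : ℝ) * l ^ 2 ≤ l ^ k := by
    rw [← pow_succ']
    exact pow_le_pow_right₀ (by linarith) hk
  have hy : (0 : ℝ) < (l : ℝ) ^ 2 := by positivity
  refine ⟨((l ^ k : ℕ) : GR (Col ι)) * ρ + -push (nsmulAddMonoidHom l) ρ,
    ((l : ℝ) ^ k - l ^ 2) * μ, mul_pos (by nlinarith) hμ, ?_, ?_, fun i => ?_⟩
  · rw [map_add, map_neg, Gam_nat_mul, Gam_scale, h1, smul_smul, smul_smul, sub_mul, sub_smul]
    push_cast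
    rw [sub_eq_add_neg]
  · refine ((h2.nat_mul (l ^ k)).add (h2.scale l).neg).mono ?_
    rw [Gam_scale, h1, smul_smul, trace_smul, trace_one, smul_eq_mul]
    push_cast
    have e1 : (l : ℝ) ^ 2 * (Fintype.card ι + 5 * ε / 4) ≤ l ^ k * (3 * ε / 4) := by
      calc (l : ℝ) ^ 2 * (Fintype.card ι + 5 * ε / 4) ≤ l ^ 2 * (l * (3 * ε / 4)) :=
            mul_le_mul_of_nonneg_left hl3 hy.le
        _ = (l * l ^ 2) * (3 * ε / 4) := by ring
        _ ≤ l ^ k * (3 * ε / 4) := mul_le_mul_of_nonneg_right hx (by positivity)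
    have e2 := mul_le_mul_of_nonneg_right e1 hμ.le
    nlinarith
  · rw [map_add, map_neg, map_mul, map_natCast, evR_scale, ← sub_eq_add_neg]
    push_cast
    exact scale_mem_pow l k _ (h3 i)

lemma QQ.all (h : QQ a 3) (m : ℕ) : QQ a (m + 3) := by
  induction m with
  | zero => exact h
  | succ m ih => rw [show m + 1 + 3 = (m + 3) + 1 by ring]; exact ih.step (by omega)

end Vale.Agent.P058
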