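import Vale.Agent.P058.Words

/-!
The big / small identity in a group.
-/

namespace Vale.Agent.P058

open Matrix

variable {ι : Type} [Fintype ι] {D : Type} {G : Type} [Group G]
variable {κ : Type} [Fintype κ] [DecidableEq κ]
variable {a : D → ι → ℝ} {θ : ℝ → G}

/-- There is a word map whose relative oscillation in row `i` is at most `ρ i`. -/
def Rel (a : D → ι → ℝ) (θ : ℝ → G) (z : D → κ → ℝ) (ρ : D → ℝ) : Prop :=
  ∃ (L : ℕ) (Y : (κ → ℝ) → G), 0 < L ∧ EW a θ L Y ∧ ∀ i, Osc a θ i (z i) Y (ρ i * L)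

omit [DecidableEq κ] in
lemma Rel.mono {z : D → κ → ℝ} {ρ ρ' : D → ℝ} (h : Rel a θ z ρ) (hρ : ∀ i, ρ i ≤ ρ' i) :
    Rel a θ z ρ' := by
  obtain ⟨L, Y, hL, hY, h⟩ := h
  exact ⟨L, Y, hL, hY, fun i σ τ => (h i σ τ).mono
    (mul_le_mul_of_nonneg_right (hρ i) (Nat.cast_nonneg _))⟩

lemma Rel.step [DecidableEq D] {z : D → κ → ℝ} {ρ : D → ℝ} (h : Rel a θ z ρ) (i : D) :
    Rel a θ z (Function.update ρ i
      ((1 - 1 / (3 * (Fintype.card (Equiv.Perm κ) : ℝ))) * ρ i)) := by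
  obtain ⟨L, Y, hL, hY, h⟩ := h
  have hq : 0 < Fintype.card (Equiv.Perm κ) := Fintype.card_pos
  have hq' : (0 : ℝ) < Fintype.card (Equiv.Perm κ) := by exact_mod_cast hq
  refine ⟨_, _, Nat.mul_pos hq (by omega), hY.improve (Y (z i))⁻¹, fun j => ?_⟩
  by_cases hj : j = i
  · subst hj
    intro σ τ
    refine ((h j).improve_self σ τ).mono (le_of_eq ?_)
    rw [Function.update_self]
    push_cast
    field_simp
    ring
  · intro σ τ
    refine ((h j).improve_other _ σ τ).mono (le_of_eq ?_)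
    rw [Function.update_of_ne hj]
    push_cast
    ring

lemma Rel.steps [DecidableEq D] {z : D → κ → ℝ} {ρ : D → ℝ} (h : Rel a θ z ρ) (i : D) (m : ℕ) :
    Rel a θ z (Function.update ρ i
      ((1 - 1 / (3 * (Fintype.card (Equiv.Perm κ) : ℝ))) ^ m * ρ i)) := by
  induction m with
  | zero => simpa using h
  | succ m ih =>
    have := ih.step i
    rw [Function.update_self, Function.update_idem] at this
    rw [pow_succ', mul_assoc]
    exact this

lemma Rel.shrink [DecidableEq D] {z : D → κ → ℝ} {ρ : D → ℝ} (h : Rel a θ z ρ) (i : D) {ε : ℝ}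
    (hε : 0 < ε) : Rel a θ z (Function.update ρ i ε) := by
  have hq : 0 < Fintype.card (Equiv.Perm κ) := Fintype.card_pos
  have hq' : (1 : ℝ) ≤ Fintype.card (Equiv.Perm κ) := by exact_mod_cast hq
  set r : ℝ := 1 - 1 / (3 * (Fintype.card (Equiv.Perm κ) : ℝ)) with hr
  have h3 : (0 : ℝ) < 3 * (Fintype.card (Equiv.Perm κ) : ℝ) := by linarith
  have hr0 : 0 ≤ r := by
    rw [hr, sub_nonneg, div_le_one h3]; linarith
  have hr1 : r < 1 := by
    rw [hr]; have := one_div_pos.mpr h3; linarith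
  have ht := (tendsto_pow_atTop_nhds_zero_of_lt_one hr0 hr1).mul_const (ρ i)
  rw [zero_mul] at ht
  obtain ⟨m, hm⟩ := (ht.eventually (gt_mem_nhds hε)).exists
  refine (h.steps i m).mono (fun j => ?_)
  by_cases hj : j = i
  · subst hj; simp only [Function.update_self]; exact hm.le
  · simp [Function.update_of_ne hj]

lemma Rel.small [Fintype D] [DecidableEq D] (ha : Function.Injective a) (h0 : θ 0 = 1)
    (htop : Subgroup.closure (Set.range θ) = ⊤) (z : D → κ → ℝ) {ε : ℝ} (hε : 0 < ε) :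
    Rel a θ z (fun _ => ε) := by
  have hinit : ∃ ρ, Rel a θ z ρ := by
    obtain ⟨L, Y, hL, hY, hc⟩ := exists_EW_lcs (a := a) (θ := θ) (κ := κ) (Fintype.card D - 1)
    have hO : ∀ i (σ τ : Equiv.Perm κ), ∃ t,
        Ore a θ {j | j ≠ i} i (Y (z i ∘ σ) * (Y (z i ∘ τ))⁻¹) t := by
      intro i σ τ
      have h1 := lcs_le_oreSub (a := a) (i := i) h0 htop (Finset.univ.erase i)
        (fun j hj h => (Finset.ne_of_mem_erase hj) (ha h).symm)
      rw [Finset.card_erase_of_mem (Finset.mem_univ i), Finset.card_univ] at h1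
      have h2 := hc (z i ∘ τ) (τ⁻¹ * σ)
      have e : (z i ∘ τ) ∘ (τ⁻¹ * σ : Equiv.Perm κ) = z i ∘ σ := by
        funext k; simp
      rw [e] at h2
      obtain ⟨t, ht⟩ := h1 h2
      have e2 : ((Finset.univ.erase i : Finset D) : Set D) = {j | j ≠ i} := by
        ext j; simp
      rw [e2] at ht
      exact ⟨t, ht⟩
    choose t ht using hO
    refine ⟨fun i => ∑ σ, ∑ τ, t i σ τ, L, Y, hL, hY, fun i σ τ => (ht i σ τ).mono ?_⟩
    have hL' : (1 : ℝ) ≤ L := by exact_mod_cast hL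
    have h1 : t i σ τ ≤ ∑ τ, t i σ τ :=
      Finset.single_le_sum (f := fun τ => t i σ τ) (fun τ _ => (ht i σ τ).nonneg)
        (Finset.mem_univ τ)
    have h2 : ∑ τ, t i σ τ ≤ ∑ σ, ∑ τ, t i σ τ :=
      Finset.single_le_sum (f := fun σ => ∑ τ, t i σ τ)
        (fun σ _ => Finset.sum_nonneg (fun τ _ => (ht i σ τ).nonneg)) (Finset.mem_univ σ)
    have h3 : 0 ≤ ∑ σ, ∑ τ, t i σ τ := (ht i σ τ).nonneg.trans (h1.trans h2)
    nlinarith
  have key : ∀ T : Finset D, ∃ ρ, Rel a θ z ρ ∧ ∀ i ∈ T, ρ i ≤ ε := by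
    intro T
    induction T using Finset.induction_on with
    | empty => obtain ⟨ρ, h⟩ := hinit; exact ⟨ρ, h, by simp⟩
    | insert i T hi ih =>
      obtain ⟨ρ, h1, h2⟩ := ih
      refine ⟨_, h1.shrink i hε, fun j hj => ?_⟩
      by_cases hji : j = i
      · subst hji; simp
      · rw [Function.update_of_ne hji]
        exact h2 j (by simpa [hji] using hj)
  obtain ⟨ρ, h1, h2⟩ := key Finset.univ
  exact h1.mono (fun i => h2 i (Finset.mem_univ i))

theorem big_small [DecidableEq ι] [Fintype D] [DecidableEq D] (ha : Function.Injective a)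
    (h0 : θ 0 = 1) (htop : Subgroup.closure (Set.range θ) = ⊤)
    (Wp Wm : κ → Col ι) (g : D → Equiv.Perm κ)
    (hg : ∀ i k, ev (a i) (Wp k) = ev (a i) (Wm (g i k))) {μ M : ℝ} (hμ : 0 < μ)
    (hΓ : ∑ k, gram (Wp k) = ∑ k, gram (Wm k) + μ • (1 : Matrix ι ι ℝ))
    (hsmall : (∑ k, gram (Wm k)).trace < μ / M) :
    ∃ (l : ℝ) (y : D → G), 0 < l ∧ Pat a θ ((l / M) • (1 : Matrix ι ι ℝ)) y ∧
      Pat a θ ((l / M + l) • (1 : Matrix ι ι ℝ)) y := by
  set δ := μ / M - (∑ k, gram (Wm k)).trace with hδ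
  have hδ0 : 0 < δ := sub_pos.mpr hsmall
  have hn : (0 : ℝ) < (Fintype.card D : ℝ) + 1 := by positivity
  obtain ⟨L, Y, hL, hY, hO⟩ := Rel.small ha h0 htop (fun i k => ev (a i) (Wm k))
    (div_pos hδ0 hn)
  have hL' : (0 : ℝ) < L := by exact_mod_cast hL
  have Pp := hY Wp
  have Pm := hY Wm
  set p : D → G := fun i => Y (fun k => ev (a i) (Wp k)) with hp
  set m : D → G := fun i => Y (fun k => ev (a i) (Wm k)) with hm
  have hs : ∀ i, Ore a θ {j | j ≠ i} i ((m i)⁻¹ * p i) (δ / (Fintype.card D + 1) * L) := by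
    intro i
    have h1 := (hO i (g i) 1).conj (m i)⁻¹
    refine h1.congr ?_
    have e1 : (fun k => ev (a i) (Wm k)) ∘ (g i) = fun k => ev (a i) (Wp k) := by
      funext k; simp [hg]
    have e2 : (fun k => ev (a i) (Wm k)) ∘ (1 : Equiv.Perm κ) = fun k => ev (a i) (Wm k) := rfl
    rw [e1, e2]
    simp only [hp, hm]
    group
  obtain ⟨N, B, B', h1, h2, h3, h4⟩ := gather (fun i => (m i)⁻¹ * p i) _ Finset.univ
    (fun i _ => hs i)
  have hsm := Pm.mul h1
  have hbig := Pp.mul h2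
  have heq : ∀ i, p i * B' i = m i * B i := by
    intro i
    have := h3 i
    simp only [Finset.mem_univ, if_true] at this
    have e : B i = (m i)⁻¹ * p i * B' i := by rw [← this]; group
    rw [e]; group
  set H := (L : ℝ) • ∑ k, gram (Wm k) + N with hH
  have htr : H.trace ≤ L * μ / M := by
    rw [hH, trace_add, trace_smul, smul_eq_mul]
    rw [Finset.card_univ] at h4
    have h5 : (Fintype.card D : ℝ) * (δ / (Fintype.card D + 1) * L) ≤ δ * L := by
      rw [← mul_assoc]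
      refine mul_le_mul_of_nonneg_right ?_ hL'.le
      rw [← mul_div_assoc, div_le_iff₀ hn]
      nlinarith
    have h6 : δ * L = L * μ / M - L * (∑ k, gram (Wm k)).trace := by rw [hδ]; ring
    linarith
  obtain ⟨E1, e1⟩ := hsm.exists_compl
  obtain ⟨E2, e2⟩ := Pat.exists_smul_one (a := a) (θ := θ) (L * μ / M - H.trace)
    (sub_nonneg.mpr htr)
  refine ⟨L * μ, fun i => m i * B i * (E1 i * E2 i), mul_pos hL' hμ,
    (hsm.mul (e1.mul e2)).congr ?_ (fun _ => rfl),
    (hbig.mul (e1.mul e2)).congr ?_ (fun i => by rw [← heq i])⟩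
  · rw [sub_smul]; abel
  · rw [hΓ, smul_add, smul_smul, sub_smul, add_smul, hH]; abel

end Vale.Agent.P058
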