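import Vale.Agent.P058.Good

/-!
The tensor condition gives formal combinations with small negative part.
-/

namespace Vale.Agent.P058

open Matrix TensorProduct

set_option linter.unusedSectionVars false

variable {ι : Type} [Fintype ι] [DecidableEq ι]

lemma Th_add {κ : Type} [Fintype κ] (w : κ → Col ι) (c c' : Matrix κ κ ℚ) :
    Th w (c + c') = Th w c + Th w c' := by
  simp [Th, add_smul, Finset.sum_add_distrib]

lemma Th_conj {κ κ' : Type} [Fintype κ] [Fintype κ'] (w : κ → Col ι) (Y : Matrix κ' κ ℚ)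
    (c : Matrix κ' κ' ℚ) : Th w (Yᵀ * c * Y) = Th (fun j => ∑ k, Y j k • w k) c := by
  simp only [Th, Matrix.mul_apply, transpose_apply, Finset.sum_mul, Finset.sum_smul, sum_tmul,
    tmul_sum, Finset.smul_sum, TensorProduct.smul_tmul_smul, smul_smul]
  calc ∑ j, ∑ k, ∑ m, ∑ l, (Y l j * c l m * Y m k) • (w j ⊗ₜ[ℚ] w k)
      = ∑ j, ∑ m, ∑ k, ∑ l, (Y l j * c l m * Y m k) • (w j ⊗ₜ[ℚ] w k) :=
        Finset.sum_congr rfl (fun j _ => Finset.sum_comm)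
    _ = ∑ j, ∑ m, ∑ l, ∑ k, (Y l j * c l m * Y m k) • (w j ⊗ₜ[ℚ] w k) :=
        Finset.sum_congr rfl (fun j _ => Finset.sum_congr rfl (fun m _ => Finset.sum_comm))
    _ = ∑ m, ∑ j, ∑ l, ∑ k, (Y l j * c l m * Y m k) • (w j ⊗ₜ[ℚ] w k) := Finset.sum_comm
    _ = ∑ m, ∑ l, ∑ j, ∑ k, (Y l j * c l m * Y m k) • (w j ⊗ₜ[ℚ] w k) :=
        Finset.sum_congr rfl (fun m _ => Finset.sum_comm)
    _ = ∑ l, ∑ m, ∑ j, ∑ k, (Y l j * c l m * Y m k) • (w j ⊗ₜ[ℚ] w k) := Finset.sum_comm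
    _ = ∑ l, ∑ m, ∑ k, ∑ j, (Y l j * c l m * Y m k) • (w j ⊗ₜ[ℚ] w k) :=
        Finset.sum_congr rfl (fun l _ => Finset.sum_congr rfl (fun m _ => Finset.sum_comm))
    _ = _ := by
        refine Finset.sum_congr rfl (fun l _ => Finset.sum_congr rfl (fun m _ =>
          Finset.sum_congr rfl (fun k _ => Finset.sum_congr rfl (fun j _ => ?_))))
        congr 1; ring

lemma Good.th_one {κ : Type} [Fintype κ] [DecidableEq κ] (w : κ → Col ι) :
    Good (Th w (1 : Matrix κ κ ℚ)) 0 := by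
  have h := Good.sum Finset.univ _ _ (fun j _ => Good.sq (w j))
  rw [Finset.sum_const_zero] at h
  convert h using 1
  refine Finset.sum_congr rfl (fun j _ => ?_)
  simp [one_apply]

lemma gramT_Th {κ : Type} [Fintype κ] (w : κ → Col ι) (c : Matrix κ κ ℚ) :
    gramT (Th w c) = (Matrix.of (fun α j => (w j).1 α)) * c.map (Rat.cast : ℚ → ℝ) *
      (Matrix.of (fun α j => (w j).1 α))ᵀ := by
  ext α β
  simp only [Th, map_sum, map_smul, gramT_tmul, Matrix.sum_apply, Matrix.smul_apply, vecMulVec,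
    of_apply, Matrix.mul_apply, transpose_apply, map_apply, Finset.sum_mul, Rat.smul_def]
  rw [Finset.sum_comm]
  refine Finset.sum_congr rfl (fun j _ => Finset.sum_congr rfl (fun k _ => by ring))

theorem good_small {κ : Type} [Fintype κ] [DecidableEq κ] (w : κ → Col ι) (c : Matrix κ κ ℚ)
    (hc : c.IsSymm) (h1 : gramT (Th w c) = 1) {ε : ℝ} (hε : 0 < ε) : Good (Th w c) ε := by
  set E : Matrix ι κ ℝ := Matrix.of (fun α j => (w j).1 α) with hE
  set C : Matrix κ κ ℝ := c.map (Rat.cast : ℚ → ℝ) with hC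
  have hCs : Cᵀ = C := by
    ext j k; simp [hC, hc.apply j k]
  rw [gramT_Th, ← hE, ← hC] at h1
  let Ψ : Matrix ι κ ℝ × Matrix κ κ ℝ → ℝ := fun p =>
    ∑ j, ∑ k, |C j k| * ((p.2 * Eᵀ) j ⬝ᵥ (p.2 * Eᵀ) j + (p.2 * Eᵀ) k ⬝ᵥ (p.2 * Eᵀ) k) +
    ∑ j, ∑ k, |(C - p.1ᵀ * p.1 - p.2ᵀ * C * p.2) j k| * (sqn (w j) + sqn (w k))
  have hΨ : Continuous Ψ := by
    simp only [Ψ, Matrix.mul_apply, Matrix.sub_apply, transpose_apply, dotProduct]
    fun_prop
  have h0 : Ψ (E * C, 1 - Eᵀ * (E * C)) = 0 := by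
    have e1 : (1 - Eᵀ * (E * C)) * Eᵀ = 0 := by
      rw [Matrix.sub_mul, Matrix.one_mul, Matrix.mul_assoc, h1, Matrix.mul_one, sub_self]
    have e2 : C - (E * C)ᵀ * (E * C) - (1 - Eᵀ * (E * C))ᵀ * C * (1 - Eᵀ * (E * C)) = 0 := by
      have e3 : (1 - Eᵀ * (E * C))ᵀ * C * Eᵀ = 0 := by
        rw [transpose_sub, transpose_one, transpose_mul, transpose_mul, transpose_transpose, hCs,
          Matrix.sub_mul, Matrix.sub_mul, Matrix.one_mul, Matrix.mul_assoc (C * Eᵀ) E,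
          Matrix.mul_assoc (C * Eᵀ), h1, Matrix.mul_one, sub_self]
      rw [Matrix.mul_sub, Matrix.mul_one, ← Matrix.mul_assoc _ Eᵀ, e3,
        Matrix.zero_mul, sub_zero, transpose_sub, transpose_one, Matrix.sub_mul, Matrix.one_mul,
        transpose_mul Eᵀ, transpose_transpose, Matrix.mul_assoc _ E C]
      abel
    simp only [Ψ, e1, e2]
    simp [dotProduct]
  have hd : DenseRange (fun p : Matrix ι κ ℚ × Matrix κ κ ℚ =>
      ((p.1.map (Rat.cast : ℚ → ℝ), p.2.map (Rat.cast : ℚ → ℝ)) :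
        Matrix ι κ ℝ × Matrix κ κ ℝ)) :=
    DenseRange.prodMap
      (DenseRange.piMap (fun _ => DenseRange.piMap (fun _ => Rat.denseRange_cast)))
      (DenseRange.piMap (fun _ => DenseRange.piMap (fun _ => Rat.denseRange_cast)))
  obtain ⟨⟨X, Y⟩, hXY⟩ := hd.exists_mem_open (isOpen_lt hΨ continuous_const (g := fun _ => ε))
    ⟨(E * C, 1 - Eᵀ * (E * C)), by simp only [Set.mem_ofPred_eq, h0, hε]⟩
  simp only [Set.mem_ofPred_eq] at hXY
  have hsplit : c = Xᵀ * X + (Yᵀ * c * Y + (c - Xᵀ * X - Yᵀ * c * Y)) := by abel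
  have hsym : (c - Xᵀ * X - Yᵀ * c * Y).IsSymm := by
    rw [Matrix.IsSymm, transpose_sub, transpose_sub, transpose_mul, transpose_mul, transpose_mul,
      transpose_transpose, transpose_transpose, hc.eq, Matrix.mul_assoc]
  have g1 := Good.th_one (fun j => ∑ k, X j k • w k)
  have g2 := Good.th (fun j => ∑ k, Y j k • w k) c hc
  have g3 := Good.th w _ hsym
  rw [← Th_conj] at g1 g2
  rw [Matrix.mul_one] at g1
  have g := g1.add (g2.add g3)
  rw [← Th_add, ← Th_add, ← hsplit] at g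
  refine g.mono (le_trans (le_of_eq ?_) hXY.le)
  have hrow : ∀ j, sqn (∑ k, Y j k • w k) = (Y.map (Rat.cast : ℚ → ℝ) * Eᵀ) j ⬝ᵥ
      (Y.map (Rat.cast : ℚ → ℝ) * Eᵀ) j := by
    intro j
    have : (∑ k, Y j k • w k).1 = (Y.map (Rat.cast : ℚ → ℝ) * Eᵀ) j := by
      funext α
      simp [Prod.fst_sum, Finset.sum_apply, Matrix.mul_apply, hE, Rat.smul_def]
    rw [sqn, this]
  have hent : ∀ j k, (((c - Xᵀ * X - Yᵀ * c * Y) j k : ℚ) : ℝ) =
      (C - (X.map (Rat.cast : ℚ → ℝ))ᵀ * X.map (Rat.cast : ℚ → ℝ) -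
        (Y.map (Rat.cast : ℚ → ℝ))ᵀ * C * Y.map (Rat.cast : ℚ → ℝ)) j k := by
    intro j k
    simp [Matrix.mul_apply, hC]
  simp only [Ψ, zero_add, hrow, hent]
  rfl

variable {D : Type}

/-- The tensor condition in terms of columns. -/
def TC (a : D → ι → ℝ) : Prop :=
  ∃ b : Col ι ⊗[ℚ] Col ι, (∀ i, evT (a i) b = 0) ∧ gramT b = 1

theorem TC.toQQ {a : D → ι → ℝ} (h : TC a) : QQ a 3 := by
  obtain ⟨b, h1, h2⟩ := h
  obtain ⟨k, u, v, rfl⟩ := TensorProduct.exists_sum_tmul_eq b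
  let w : Fin k ⊕ Fin k → Col ι := Sum.elim u v
  let c : Matrix (Fin k ⊕ Fin k) (Fin k ⊕ Fin k) ℚ :=
    fromBlocks 0 ((1 / 2 : ℚ) • 1) ((1 / 2 : ℚ) • 1) 0
  have hc : c.IsSymm := by
    simp [c, Matrix.IsSymm, fromBlocks_transpose]
  have hT : Th w c = (1 / 2 : ℚ) • (∑ j, u j ⊗ₜ[ℚ] v j + ∑ j, v j ⊗ₜ[ℚ] u j) := by
    simp [Th, w, c, Fintype.sum_sum_type, one_apply, Finset.smul_sum]
  have hg : gramT (Th w c) = 1 := by
    have h3 : gramT (∑ j, v j ⊗ₜ[ℚ] u j) = (gramT (∑ j, u j ⊗ₜ[ℚ] v j))ᵀ := by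
      simp only [map_sum, gramT_tmul, transpose_sum, transpose_vecMulVec]
    rw [hT, map_smul, map_add, h3, h2, transpose_one, ← two_smul ℚ, smul_smul]
    norm_num
  have he : ∀ i, evT (a i) (Th w c) = 0 := by
    intro i
    have h3 : evT (a i) (∑ j, v j ⊗ₜ[ℚ] u j) =
        TensorProduct.comm ℚ ℝ ℝ (evT (a i) (∑ j, u j ⊗ₜ[ℚ] v j)) := by
      simp only [map_sum, evT_tmul, TensorProduct.comm_tmul]
    rw [hT, map_smul, map_add, h3, h1 i]
    simp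
  intro ε hε
  obtain ⟨ρ, r1, r2, r3⟩ := good_small w c hc hg (ε := ε * 2) (by positivity)
  refine ⟨ρ, 2, by norm_num, by rw [r2, hg], r1, fun i => ?_⟩
  rw [← Ideal.Quotient.eq_zero_iff_mem, r3, he, map_zero]

end Vale.Agent.P058
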