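import Vale.Agent.P058.GroupRamsey

/-!
From colourings of groups to colourings of words, through a minimal idempotent ultrafilter.
-/

namespace Vale.Agent.P058

open Matrix

theorem exists_min_idempotent {M : Type} [Nonempty M] [Semigroup M]
    [TopologicalSpace M] [CompactSpace M] [T2Space M]
    (hc : ∀ r : M, Continuous (· * r)) :
    ∃ p : M, p * p = p ∧ ∀ g, ∃ r, r * (g * p) = p := by
  let S : Set (Set M) := { N | IsClosed N ∧ N.Nonempty ∧ ∀ (x m : M), m ∈ N → x * m ∈ N }
  rsuffices ⟨N, hN⟩ : ∃ N', Minimal (· ∈ S) N'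
  · obtain ⟨N_closed, hne, N_mul⟩ := hN.prop
    obtain ⟨p, hp, hpp⟩ := exists_idempotent_in_compact_subsemigroup hc N hne N_closed.isCompact
      (fun x _ y hy => N_mul x y hy)
    refine ⟨p, hpp, fun g => ?_⟩
    have key : Set.range (· * (g * p)) = N := by
      apply hN.eq_of_subset
      · refine ⟨(isCompact_range (hc _)).isClosed, Set.range_nonempty _, ?_⟩
        rintro x _ ⟨r, rfl⟩
        exact ⟨x * r, mul_assoc _ _ _⟩
      · rintro _ ⟨r, rfl⟩
        exact N_mul _ _ (N_mul _ _ hp)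
    rw [← key] at hp
    exact hp
  refine zorn_superset _ fun c hcs hc => ?_
  refine ⟨⋂₀ c, ⟨isClosed_sInter fun t ht => (hcs ht).1, ?_, fun x m hm => ?_⟩, fun s hs =>
      Set.sInter_subset_of_mem hs⟩
  · obtain rfl | hcnemp := c.eq_empty_or_nonempty
    · rw [Set.sInter_empty]
      apply Set.univ_nonempty
    convert!
      @IsCompact.nonempty_iInter_of_directed_nonempty_isCompact_isClosed _ _ _ hcnemp.coe_sort
        ((↑) : c → Set M) ?_ ?_ ?_ ?_
    · exact Set.sInter_eq_iInter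
    · refine DirectedOn.directed_val (IsChain.directedOn hc.symm)
    exacts [fun i => (hcs i.prop).2.1, fun i => (hcs i.prop).1.isCompact, fun i => (hcs i.prop).1]
  · rw [Set.mem_sInter]
    exact fun t ht => (hcs ht).2.2 x m (Set.mem_sInter.mp hm t ht)

/-- The corner `p M p` of a semigroup. -/
def Corner {M : Type} [Semigroup M] (p : M) : Type := {g : M // p * g = g ∧ g * p = g}

/-- The corner of a minimal idempotent is a group. -/
@[reducible] noncomputable def cornerGroup {M : Type} [Semigroup M] (p : M) (hp : p * p = p)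
    (hmin : ∀ g, ∃ r, r * (g * p) = p) : Group (Corner p) :=
  letI : Mul (Corner p) := ⟨fun x y => ⟨x.1 * y.1, by rw [← mul_assoc, x.2.1],
    by rw [mul_assoc, y.2.2]⟩⟩
  letI : One (Corner p) := ⟨⟨p, hp, hp⟩⟩
  letI : Inv (Corner p) := ⟨fun x => ⟨p * (hmin x.1).choose * p,
    by rw [← mul_assoc, ← mul_assoc, hp], by rw [mul_assoc, hp]⟩⟩
  Group.ofLeftAxioms (fun x y z => Subtype.ext (mul_assoc x.1 y.1 z.1))
    (fun x => Subtype.ext x.2.1)
    (fun x => Subtype.ext (by
      have h := (hmin x.1).choose_spec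
      change p * (hmin x.1).choose * p * x.1 = p
      generalize (hmin x.1).choose = r at h ⊢
      rw [x.2.2] at h
      rw [mul_assoc, x.2.1, mul_assoc, h, hp]))

variable {ι : Type} [Fintype ι] {D : Type}

/-- Word patterns. -/
def WPat (a : D → ι → ℝ) (M : Matrix ι ι ℝ) (t : D → FreeMonoid ℝ) : Prop :=
  ∃ L : List (Col ι), (L.map gram).sum = M ∧ ∀ i, FreeMonoid.toList (t i) = L.map (ev (a i))

/-- Limits of word patterns. -/
def CPat (a : D → ι → ℝ) (M : Matrix ι ι ℝ) (q : D → Ultrafilter (FreeMonoid ℝ)) : Prop :=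
  ∀ C : D → Set (FreeMonoid ℝ), (∀ i, C i ∈ q i) → ∃ t, WPat a M t ∧ ∀ i, t i ∈ C i

attribute [local instance] Ultrafilter.mul Ultrafilter.semigroup

variable {a : D → ι → ℝ}

lemma CPat.mul {M N : Matrix ι ι ℝ} {q r : D → Ultrafilter (FreeMonoid ℝ)} (h1 : CPat a M q)
    (h2 : CPat a N r) : CPat a (M + N) (fun i => q i * r i) := by
  intro C hC
  obtain ⟨t, ⟨L, hL, ht⟩, htC⟩ := h1 (fun i => {m | ∀ᶠ m' in r i, m * m' ∈ C i})
    (fun i => (Ultrafilter.eventually_mul (q i) (r i) (· ∈ C i)).mp (hC i))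
  obtain ⟨t', ⟨L', hL', ht'⟩, htC'⟩ := h2 (fun i => {m' | t i * m' ∈ C i}) (fun i => htC i)
  refine ⟨fun i => t i * t' i, ⟨L ++ L', by simp [hL, hL'], fun i => ?_⟩, fun i => htC' i⟩
  rw [FreeMonoid.toList_mul, ht, ht', List.map_append]

lemma CPat.const [Finite D] (q : Ultrafilter (FreeMonoid ℝ)) : CPat a 0 (fun _ => q) := by
  intro C hC
  have h : (⋂ i, C i) ∈ q := (Filter.iInter_mem (f := (q : Filter (FreeMonoid ℝ)))).mpr hC
  obtain ⟨w, hw⟩ := Ultrafilter.nonempty_of_mem h
  refine ⟨fun _ => w, ⟨(FreeMonoid.toList w).map (fun c => ((0, c) : Col ι)), ?_, fun i => ?_⟩,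
    fun i => Set.mem_iInter.mp hw i⟩
  · rw [List.map_map]
    apply List.sum_eq_zero
    intro x hx
    obtain ⟨c, _, rfl⟩ := List.mem_map.mp hx
    exact gram_const c
  · rw [List.map_map]
    conv_lhs => rw [← List.map_id (FreeMonoid.toList w)]
    apply List.map_congr_left
    intro c _
    simp [ev_apply]

lemma CPat.col (u : Col ι) :
    CPat a (gram u) (fun i => pure (FreeMonoid.of (ev (a i) u))) := by
  intro C hC
  exact ⟨fun i => FreeMonoid.of (ev (a i) u), ⟨[u], by simp, fun i => by simp⟩,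
    fun i => Ultrafilter.mem_pure.mp (hC i)⟩

theorem word_ramsey [DecidableEq ι] [Fintype D] [DecidableEq D] (ha : Function.Injective a)
    (hAB : AB a) {K : Type} [Finite K] (c : FreeMonoid ℝ → K) :
    ∃ t, WPat a 1 t ∧ ∃ k, ∀ i, c (t i) = k := by
  obtain ⟨p, hp, hmin⟩ := exists_min_idempotent (M := Ultrafilter (FreeMonoid ℝ))
    Ultrafilter.continuous_mul_left
  let : Group (Corner p) := cornerGroup p hp hmin
  let θ : ℝ → Corner p := fun x => ⟨p * pure (FreeMonoid.of x) * p,
    by rw [← mul_assoc, ← mul_assoc, hp], by rw [mul_assoc, hp]⟩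
  have hcol : ∀ q : Ultrafilter (FreeMonoid ℝ), ∃ k, c ⁻¹' {k} ∈ q := by
    intro q
    obtain ⟨k, hk⟩ := Ultrafilter.eq_pure_of_finite (q.map c)
    refine ⟨k, ?_⟩
    rw [← Ultrafilter.mem_map, hk]
    exact Ultrafilter.mem_pure.mpr rfl
  choose cb hcb using hcol
  obtain ⟨y, hy, k, hk⟩ := group_ramsey ha hAB θ (fun g => cb g.1)
  have key : ∀ (M : Matrix ι ι ℝ) (y : D → Corner p), Pat a θ M y → CPat a M (fun i => (y i).1) := by
    intro M y h
    induction h with
    | const c => exact CPat.const _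
    | col u =>
      have := ((CPat.const (a := a) p).mul (CPat.col u)).mul (CPat.const p)
      rw [zero_add, add_zero] at this
      exact this
    | mul _ _ h1 h2 => exact h1.mul h2
  obtain ⟨t, ht, htc⟩ := key 1 y hy (fun _ => c ⁻¹' {k}) (fun i => by
    have := hcb (y i).1
    rwa [hk i] at this)
  exact ⟨t, ht, k, htc⟩

end Vale.Agent.P058
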