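import Vale.Agent.P058.Defs
import Vale.Agent.P058.Decomp
import Vale.Agent.P058.Ultra

/-!
Sufficiency of the tensor condition.
-/

namespace Vale.Agent.P058

open Matrix

lemma list_sq_sum {ι : Type} [Fintype ι] (x y : ι → ℝ) (L : List (Col ι)) :
    (L.map (fun u => (ev x u - ev y u) ^ 2)).sum = (x - y) ⬝ᵥ ((L.map gram).sum *ᵥ (x - y)) := by
  induction L with
  | nil => simp
  | cons u L ih =>
    rw [List.map_cons, List.sum_cons, List.map_cons, List.sum_cons, ih, add_mulVec,
      dotProduct_add]
    congr 1
    rw [gram, vecMulVec_mulVec, ev_apply, ev_apply]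
    simp only [dotProduct_smul, dotProduct_sub, sub_dotProduct, op_smul_eq_mul,
      dotProduct_comm x, dotProduct_comm y]
    ring

/-- The point attached to a word. -/
noncomputable def wordVec (n : ℕ) (w : List ℝ) : EuclideanSpace ℝ (Fin (n + 1)) :=
  WithLp.toLp 2 (fun k => (0 :: w).getD k 0)

lemma wordVec_dist {β : Type} (L : List β) (f g : β → ℝ) :
    dist (wordVec L.length (L.map f)) (wordVec L.length (L.map g)) ^ 2 =
      (L.map (fun u => (f u - g u) ^ 2)).sum := by
  rw [EuclideanSpace.dist_sq_eq, Fin.sum_univ_succ]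
  simp only [wordVec, Real.dist_eq, sq_abs]
  rw [← Fin.sum_univ_fun_getElem]
  simp

theorem ramsey_of_TC {d : ℕ} (A : Finset (EuclideanSpace ℝ (Fin d))) (hA : A.Nonempty)
    (h : TC (fun x : A => fun α => (x : EuclideanSpace ℝ (Fin d)) α)) : IsRamsey A := by
  classical
  intro r hr
  by_contra hcon
  push Not at hcon
  choose c hc using fun n : ℕ => hcon (n + 1) (by omega)
  have hne : Nonempty A := hA.to_subtype
  have ha : Function.Injective (fun x : A => fun α => (x : EuclideanSpace ℝ (Fin d)) α) := by
    intro x y hxy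
    apply Subtype.ext
    ext α
    exact congrFun hxy α
  obtain ⟨t, ⟨L, hL, ht⟩, k, hk⟩ := word_ramsey ha (h.toQQ.toAB ha)
    (fun w => c (FreeMonoid.toList w).length (wordVec _ (FreeMonoid.toList w)))
  have key : ∀ (w : List ℝ) (n : ℕ), w.length = n →
      c w.length (wordVec w.length w) = c n (wordVec n w) := by
    intro w n hn; subst hn; rfl
  obtain ⟨x, hx⟩ := hc L.length
    (fun x => wordVec L.length (L.map (ev (fun α => (x : EuclideanSpace ℝ (Fin d)) α)))) (by
      intro x y
      rw [← sq_eq_sq₀ dist_nonneg dist_nonneg, wordVec_dist, list_sq_sum, hL, one_mulVec,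
        EuclideanSpace.dist_sq_eq]
      simp [dotProduct, Real.dist_eq, sq]) k
  apply hx
  have := hk x
  rw [key _ L.length (by rw [ht x, List.length_map]), ht x] at this
  exact this

end Vale.Agent.P058
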