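import Vale.Agent.P058.Nec2
import Vale.Agent.P058.Suff

/-!
The matrix form of the tensor condition over a subfield containing the coordinates.
-/

namespace Vale.Agent.P058

open Matrix TensorProduct

/-- Descent of scalars from the reals to a subfield. -/
lemma exists_descent (K : Type) [Field K] [Algebra ℚ K] [Algebra K ℝ] [IsScalarTower ℚ K ℝ] :
    ∃ π : ℝ ⊗[ℚ] ℝ →ₗ[ℚ] K ⊗[ℚ] K,
      (∀ (x y : K) (z : ℝ ⊗[ℚ] ℝ), π ((algebraMap K ℝ x ⊗ₜ[ℚ] algebraMap K ℝ y) * z) =
        (x ⊗ₜ[ℚ] (1 : K)) * π z * ((1 : K) ⊗ₜ[ℚ] y)) ∧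
      (∀ (x : K) (z : ℝ ⊗[ℚ] ℝ), LinearMap.mul' ℚ ℝ z = algebraMap K ℝ x →
        LinearMap.mul' ℚ K (π z) = x) := by
  classical
  obtain ⟨s, hs1, -⟩ := Submodule.exists_le_ker_of_notMem (K := K) (V := ℝ) (p := ⊥)
    (v := (1 : ℝ)) (by simp)
  let p : ℝ →ₗ[K] K := (s 1)⁻¹ • s
  have hp1 : p 1 = 1 := by simp [p, inv_mul_cancel₀ hs1]
  let B := Module.Basis.ofVectorSpace K ℝ
  let L : (Module.Basis.ofVectorSpaceIndex K ℝ →₀ K) →ₗ[ℚ] ℝ →ₗ[ℚ] K ⊗[ℚ] K :=
    Finsupp.lsum ℚ (fun j => (TensorProduct.mk ℚ K K).compl₂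
      ((p.restrictScalars ℚ).comp (LinearMap.mulLeft ℚ (B j))))
  let π : ℝ ⊗[ℚ] ℝ →ₗ[ℚ] K ⊗[ℚ] K :=
    TensorProduct.lift (L.comp (B.repr.toLinearMap.restrictScalars ℚ))
  have hπ : ∀ j (x : K) (t : ℝ), π ((x • B j) ⊗ₜ t) = x ⊗ₜ p (B j * t) := by
    intro j x t
    have e : B.repr (x • B j) = Finsupp.single j x := by
      rw [map_smul, B.repr_self, Finsupp.smul_single, smul_eq_mul, mul_one]
    change L (B.repr (x • B j)) t = _
    rw [e, Finsupp.lsum_single]
    rfl
  have hind : ∀ P : ℝ → Prop, P 0 → (∀ j (x : K), P (x • B j)) →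
      (∀ r r', P r → P r' → P (r + r')) → ∀ r, P r := by
    intro P h0 h1 h2 r
    rw [← B.repr.symm_apply_apply r]
    induction B.repr r using Finsupp.induction_linear with
    | zero => simpa using h0
    | add f g hf hg => rw [map_add]; exact h2 _ _ hf hg
    | single j x => rw [Module.Basis.repr_symm_single]; exact h1 j x
  have hm : ∀ z, LinearMap.mul' ℚ K (π z) = p (LinearMap.mul' ℚ ℝ z) := by
    intro z
    induction z using TensorProduct.induction_on with
    | zero => simp
    | add z z' h h' => simp only [map_add, h, h']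
    | tmul r t =>
      refine hind (fun r => LinearMap.mul' ℚ K (π (r ⊗ₜ t)) = p (LinearMap.mul' ℚ ℝ (r ⊗ₜ t)))
        (by simp) (fun j x => ?_) (fun r r' h h' => by simp only [add_tmul, map_add, h, h']) r
      rw [hπ, LinearMap.mul'_apply, LinearMap.mul'_apply, smul_mul_assoc, map_smul, smul_eq_mul]
  refine ⟨π, fun x y z => ?_, fun x z hz => ?_⟩
  · induction z using TensorProduct.induction_on with
    | zero => simp
    | add z z' h h' => simp only [mul_add, map_add, add_mul, h, h']
    | tmul r t =>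
      refine hind (fun r => π ((algebraMap K ℝ x ⊗ₜ[ℚ] algebraMap K ℝ y) * (r ⊗ₜ t)) =
        (x ⊗ₜ[ℚ] (1 : K)) * π (r ⊗ₜ t) * ((1 : K) ⊗ₜ[ℚ] y)) (by simp) (fun j x' => ?_)
        (fun r r' h h' => by simp only [add_tmul, mul_add, map_add, add_mul, h, h']) r
      rw [Algebra.TensorProduct.tmul_mul_tmul, hπ]
      have e1 : algebraMap K ℝ x * (x' • B j) = (x * x') • B j := by
        rw [mul_smul, Algebra.smul_def x]
      have e2 : B j * (algebraMap K ℝ y * t) = y • (B j * t) := by
        rw [Algebra.smul_def]; ring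
      rw [e1, hπ, e2, map_smul, Algebra.TensorProduct.tmul_mul_tmul,
        Algebra.TensorProduct.tmul_mul_tmul, smul_eq_mul, mul_one, one_mul, mul_comm y]
  · rw [hm, hz, Algebra.algebraMap_eq_smul_one, map_smul, hp1, smul_eq_mul, mul_one]

variable {d : ℕ}

/-- Homogeneous coordinates of a column. -/
noncomputable def co : Option (Fin d) → (Col (Fin d) →ₗ[ℚ] ℝ)
  | none => LinearMap.snd ℚ _ _
  | some α => (LinearMap.proj α).comp (LinearMap.fst ℚ _ _)

theorem tensorCondition_of_TC (K : Type) [Field K] [Algebra ℚ K] (e : K →+* ℝ)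
    (A : Finset (EuclideanSpace ℝ (Fin d)))
    (h : TC (fun x : A => fun α => (x : EuclideanSpace ℝ (Fin d)) α)) : TensorCondition K e A := by
  obtain ⟨b, h1, h2⟩ := h
  let : Algebra K ℝ := e.toAlgebra
  have : IsScalarTower ℚ K ℝ := IsScalarTower.of_algebraMap_eq' (Subsingleton.elim _ _)
  obtain ⟨π, p1, p2⟩ := exists_descent K
  refine ⟨fun α β => π (TensorProduct.map (co α) (co β) b), fun x hx p hp0 hp => ?_, fun α β => ?_⟩
  · have p1' : ∀ (x y : K) (z : ℝ ⊗[ℚ] ℝ), (x ⊗ₜ[ℚ] (1 : K)) * π z * ((1 : K) ⊗ₜ[ℚ] y) =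
        π ((e x ⊗ₜ[ℚ] e y) * z) := fun x y z => (p1 x y z).symm
    simp only [tensorForm, p1']
    simp only [← map_sum]
    have key : ∀ c : Col (Fin d) ⊗[ℚ] Col (Fin d), ∑ α, ∑ β, (e (p α) ⊗ₜ[ℚ] e (p β)) *
        TensorProduct.map (co α) (co β) c = evT (fun α => x α) c := by
      intro c
      induction c using TensorProduct.induction_on with
      | zero => simp
      | add z z' h h' => simp only [map_add, mul_add, Finset.sum_add_distrib, h, h']
      | tmul u v =>
        have e' : ∀ w : Col (Fin d), ∑ α, e (p α) * co α w = ev (fun α => x α) w := by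
          intro w
          rw [Fintype.sum_option, ev_apply, hp0]
          simp [co, hp, dotProduct, mul_comm, add_comm]
        simp only [TensorProduct.map_tmul, Algebra.TensorProduct.tmul_mul_tmul, ← tmul_sum,
          ← sum_tmul, e', evT_tmul]
    rw [key, h1 ⟨x, hx⟩, map_zero]
  · apply p2
    have key : ∀ c : Col (Fin d) ⊗[ℚ] Col (Fin d), LinearMap.mul' ℚ ℝ
        (TensorProduct.map (co (some α)) (co (some β)) c) = gramT c α β := by
      intro c
      induction c using TensorProduct.induction_on with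
      | zero => simp
      | add z z' h h' => simp only [map_add, Matrix.add_apply, h, h']
      | tmul u v => simp [co, gramT_tmul, vecMulVec]
    rw [key, h2, one_apply]
    split_ifs <;> simp

/-- Basis columns. -/
def eh : Option (Fin d) → Col (Fin d)
  | none => (0, 1)
  | some α => (Pi.single α 1, 0)

theorem TC_of_tensorCondition (K : Type) [Field K] [Algebra ℚ K] (e : K →+* ℝ)
    (A : Finset (EuclideanSpace ℝ (Fin d)))
    (hK : ∀ x ∈ A, ∀ α, ∃ t, e t = x α) (h : TensorCondition K e A) :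
    TC (fun x : A => fun α => (x : EuclideanSpace ℝ (Fin d)) α) := by
  obtain ⟨P, h1, h2⟩ := h
  let e' : K →ₐ[ℚ] ℝ := e.toRatAlgHom
  let em : Option (Fin d) → (K →ₗ[ℚ] Col (Fin d)) := fun α =>
    ((LinearMap.toSpanSingleton ℝ _ (eh α)).restrictScalars ℚ).comp e'.toLinearMap
  have hem : ∀ α (r : K), em α r = e r • eh α := fun α r => rfl
  let inc : K ⊗[ℚ] K →ₐ[ℚ] ℝ ⊗[ℚ] ℝ := Algebra.TensorProduct.map e' e'
  have hinc : ∀ u v : K, inc (u ⊗ₜ v) = e u ⊗ₜ e v := fun u v => rfl
  refine ⟨∑ α, ∑ β, TensorProduct.map (em α) (em β) (P α β), fun x => ?_, ?_⟩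
  · choose t ht using hK x.1 x.2
    let p : Option (Fin d) → K := fun α => α.elim 1 t
    have hp : ∀ α, ev (fun α => x.1 α) (eh α) = e (p α) := by
      intro α
      cases α <;> simp [eh, ev_apply, p, ht]
    have key : ∀ α β (z : K ⊗[ℚ] K), evT (fun α => x.1 α) (TensorProduct.map (em α) (em β) z) =
        inc ((p α ⊗ₜ[ℚ] (1 : K)) * z * ((1 : K) ⊗ₜ[ℚ] p β)) := by
      intro α β z
      induction z using TensorProduct.induction_on with
      | zero => simp
      | add z z' h h' => simp only [map_add, mul_add, add_mul, h, h']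
      | tmul u v =>
        simp only [TensorProduct.map_tmul, hem, evT_tmul, map_smul, hp,
          Algebra.TensorProduct.tmul_mul_tmul, hinc]
        simp [mul_comm]
    simp only [map_sum, key]
    simp only [← map_sum]
    have := h1 x.1 x.2 p rfl ht
    rw [tensorForm] at this
    rw [this, map_zero]
  · have key : ∀ α β (z : K ⊗[ℚ] K), gramT (TensorProduct.map (em α) (em β) z) =
        e (LinearMap.mul' ℚ K z) • vecMulVec (eh α).1 (eh β).1 := by
      intro α β z
      induction z using TensorProduct.induction_on with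
      | zero => simp
      | add z z' h h' => simp only [map_add, h, h', add_smul]
      | tmul u v =>
        ext i j
        simp [hem, gramT_tmul, vecMulVec]; ring
    have e2 : gramT (∑ α, ∑ β, TensorProduct.map (em α) (em β) (P α β)) = ∑ α, ∑ β,
        e (LinearMap.mul' ℚ K (P α β)) • vecMulVec (eh α).1 (eh β).1 := by
      rw [map_sum]
      refine Finset.sum_congr rfl (fun α _ => ?_)
      rw [map_sum]
      exact Finset.sum_congr rfl (fun β _ => key α β _)
    rw [e2]
    simp only [Fintype.sum_option, h2]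
    ext i j
    simp [eh, vecMulVec, Matrix.sum_apply, Pi.single_apply, one_apply, apply_ite, eq_comm]

theorem ramsey_iff_tensorCondition (K : Type) [Field K] [Algebra ℚ K] (e : K →+* ℝ)
    (A : Finset (EuclideanSpace ℝ (Fin d))) (hA : A.Nonempty)
    (hK : ∀ x ∈ A, ∀ α, ∃ t, e t = x α) :
    IsRamsey A ↔ TensorCondition K e A :=
  ⟨fun h => tensorCondition_of_TC K e A (TC_of_ramsey A hA h),
    fun h => ramsey_of_TC A hA (TC_of_tensorCondition K e A hK h)⟩

theorem ramsey_iff_coordField (A : Finset (EuclideanSpace ℝ (Fin d))) (hA : A.Nonempty) :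
    IsRamsey A ↔ TensorCondition (coordField A) (coordField A).subtype A :=
  ramsey_iff_tensorCondition _ _ A hA
    (fun x hx α => ⟨⟨x α, Subfield.subset_closure ⟨x, hx, α, rfl⟩⟩, rfl⟩)

end Vale.Agent.P058
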