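import Mathlib

/-!
Definitions for Euclidean Ramsey theory.
-/

namespace Vale.Agent.P058

open TensorProduct

/-- `A` is Ramsey: for every number `r ≥ 2` of colours there is a dimension `D ≥ 1` such that every
colouring of Euclidean `D`-space with `r` colours is constant on a congruent copy of `A`. -/
def IsRamsey {d : ℕ} (A : Finset (EuclideanSpace ℝ (Fin d))) : Prop :=
  ∀ r : ℕ, 2 ≤ r → ∃ D : ℕ, 1 ≤ D ∧ ∀ c : EuclideanSpace ℝ (Fin D) → Fin r,
    ∃ f : A → EuclideanSpace ℝ (Fin D),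
      (∀ x y : A, dist (f x) (f y) = dist (x : EuclideanSpace ℝ (Fin d)) y) ∧
      ∃ k : Fin r, ∀ x : A, c (f x) = k

/-- The isometries of the ambient space mapping `X` onto itself act transitively on `X`. -/
def IsTransitiveSet {n : ℕ} (X : Finset (EuclideanSpace ℝ (Fin n))) : Prop :=
  ∀ x ∈ X, ∀ y ∈ X, ∃ φ : EuclideanSpace ℝ (Fin n) ≃ᵢ EuclideanSpace ℝ (Fin n),
    φ '' (X : Set (EuclideanSpace ℝ (Fin n))) = X ∧ φ x = y

/-- `A` is congruent to a subset of a finite transitive set. -/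
def IsSubtransitive {d : ℕ} (A : Finset (EuclideanSpace ℝ (Fin d))) : Prop :=
  ∃ (n : ℕ) (X : Finset (EuclideanSpace ℝ (Fin n))), IsTransitiveSet X ∧
    ∃ f : A → EuclideanSpace ℝ (Fin n),
      (∀ x y : A, dist (f x) (f y) = dist (x : EuclideanSpace ℝ (Fin d)) y) ∧ ∀ x : A, f x ∈ X

/-- The element `(p ⊗ 1)ᵀ P (1 ⊗ p)` of the ring `K ⊗[ℚ] K`. -/
noncomputable def tensorForm {K : Type} [Field K] [Algebra ℚ K] {n : Type} [Fintype n]
    (P : Matrix n n (K ⊗[ℚ] K)) (p : n → K) : K ⊗[ℚ] K :=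
  ∑ α, ∑ β, (p α ⊗ₜ[ℚ] (1 : K)) * P α β * ((1 : K) ⊗ₜ[ℚ] p β)

/-- The tensor condition over a field `K` embedded in the reals by `e`. For `x ∈ A` let
`p = (x, 1)` be its homogeneous coordinate vector over `K` (index `none` carries the `1`). There is
a square matrix `P` over the ring `K ⊗[ℚ] K` with `(p ⊗ 1)ᵀ P (1 ⊗ p) = 0` for all `x ∈ A`, whose
spatial block is sent to the identity matrix by the multiplication map `K ⊗[ℚ] K → K`. -/
def TensorCondition {d : ℕ} (K : Type) [Field K] [Algebra ℚ K] (e : K →+* ℝ)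
    (A : Finset (EuclideanSpace ℝ (Fin d))) : Prop :=
  ∃ P : Matrix (Option (Fin d)) (Option (Fin d)) (K ⊗[ℚ] K),
    (∀ x ∈ A, ∀ p : Option (Fin d) → K, p none = 1 → (∀ α, e (p (some α)) = x α) →
      tensorForm P p = 0) ∧
    ∀ α β : Fin d, LinearMap.mul' ℚ K (P (some α) (some β)) = if α = β then 1 else 0

/-- The field generated over the rationals by the coordinates of the points of `A`. -/
noncomputable def coordField {d : ℕ} (A : Finset (EuclideanSpace ℝ (Fin d))) : Subfield ℝ :=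
  Subfield.closure {t : ℝ | ∃ x ∈ A, ∃ α : Fin d, x α = t}

end Vale.Agent.P058
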