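import Vale.Agent.P058.ToAB

/-!
Second order symbols: from tensors over the rationals to formal combinations of columns.
-/

namespace Vale.Agent.P058

open Matrix TensorProduct

set_option linter.unusedSectionVars false

/-- The quotient by the third power of the augmentation ideal. -/
abbrev Q3 : Type := GR ℝ ⧸ (aug ℝ ^ 3)

/-- The class of a product of two augmentation generators. -/
noncomputable def b0 (x y : ℝ) : Q3 := Ideal.Quotient.mk _ ((br x - 1) * (br y - 1))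

lemma b0_comm (x y : ℝ) : b0 x y = b0 y x := by rw [b0, b0, mul_comm]

lemma b0_add (x x' y : ℝ) : b0 (x + x') y = b0 x y + b0 x' y := by
  rw [b0, b0, b0, ← map_add, Ideal.Quotient.eq, br_add]
  have : (br x * br x' - 1) * (br y - 1) - ((br x - 1) * (br y - 1) + (br x' - 1) * (br y - 1))
      = (br x - 1) * (br x' - 1) * (br y - 1) := by ring
  rw [this, pow_three']
  exact Ideal.mul_mem_mul (Ideal.mul_mem_mul (br_sub_one_mem _) (br_sub_one_mem _))
    (br_sub_one_mem _)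

/-- The biadditive map. -/
noncomputable def b1 : ℝ →+ ℝ →+ Q3 :=
  AddMonoidHom.mk' (fun x => AddMonoidHom.mk' (fun y => b0 x y)
    (fun y y' => by rw [b0_comm, b0_add, b0_comm y, b0_comm y']))
    (fun x x' => by ext y; exact b0_add x x' y)

lemma b1_apply (x y : ℝ) : b1 x y = b0 x y := rfl

lemma biadd_rat {P : Type} [AddCommGroup P] (f : ℝ →+ ℝ →+ P) (r : ℚ) (x y : ℝ) :
    f (r • x) y = f x (r • y) := by
  have hd : (r.den : ℝ) ≠ 0 := by exact_mod_cast r.den_ne_zero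
  have e1 : r • x = r.num • (x / r.den) := by
    rw [Rat.smul_def, Rat.cast_def, zsmul_eq_mul]; ring
  have e2 : r • y = r.num • (y / r.den) := by
    rw [Rat.smul_def, Rat.cast_def, zsmul_eq_mul]; ring
  have e3 : x = r.den • (x / r.den) := by rw [nsmul_eq_mul]; field_simp
  have e4 : y = r.den • (y / r.den) := by rw [nsmul_eq_mul]; field_simp
  rw [e1, e2, map_zsmul, map_zsmul, AddMonoidHom.smul_apply]
  congr 1
  conv_lhs => rw [e4, map_nsmul]
  conv_rhs => rw [e3, map_nsmul, AddMonoidHom.smul_apply]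

/-- The symbol map. -/
noncomputable def bT : ℝ ⊗[ℚ] ℝ →+ Q3 := TensorProduct.liftAddHom b1 (biadd_rat b1)

lemma bT_tmul (x y : ℝ) : bT (x ⊗ₜ y) = b0 x y := rfl

lemma mk_sq (x : ℝ) : Ideal.Quotient.mk (aug ℝ ^ 3) (br x + br (-x) - 2) = b0 x x := by
  have h1 : b0 x (-x) = -b0 x x := by rw [← b1_apply, map_neg, b1_apply]
  have h2 : br x + br (-x) - 2 = -((br x - 1) * (br (-x) - 1)) := by
    have : br x * br (-x) = 1 := by rw [← br_add, add_neg_cancel, br_zero]
    linear_combination this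
  rw [h2, map_neg, ← b0, h1, neg_neg]

variable {ι : Type} [Fintype ι] [DecidableEq ι]

/-- Evaluation of tensors. -/
noncomputable def evT (x : ι → ℝ) : Col ι ⊗[ℚ] Col ι →ₗ[ℚ] ℝ ⊗[ℚ] ℝ :=
  TensorProduct.map ((ev x).restrictScalars ℚ) ((ev x).restrictScalars ℚ)

lemma evT_tmul (x : ι → ℝ) (u v : Col ι) : evT x (u ⊗ₜ v) = ev x u ⊗ₜ ev x v := rfl

/-- Gram matrix of tensors. -/
noncomputable def gramT : Col ι ⊗[ℚ] Col ι →ₗ[ℚ] Matrix ι ι ℝ :=
  TensorProduct.lift (LinearMap.mk₂ ℚ (fun u v => vecMulVec u.1 v.1)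
    (fun u u' v => by ext i j; simp [vecMulVec, add_mul])
    (fun c u v => by ext i j; simp [vecMulVec])
    (fun u v v' => by ext i j; simp [vecMulVec, mul_add])
    (fun c u v => by ext i j; simp [vecMulVec]))

lemma gramT_tmul (u v : Col ι) : gramT (u ⊗ₜ v) = vecMulVec u.1 v.1 := rfl

/-- A tensor is the symbol of a formal combination with negative part of cost at most `t`. -/
def Good (z : Col ι ⊗[ℚ] Col ι) (t : ℝ) : Prop :=
  ∃ ρ : GR (Col ι), Rep ρ t ∧ Gam ρ = (2 : ℝ) • gramT z ∧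
    ∀ x : ι → ℝ, Ideal.Quotient.mk (aug ℝ ^ 3) (evR x ρ) = bT (evT x z)

lemma Good.zero : Good (0 : Col ι ⊗[ℚ] Col ι) 0 := ⟨0, Rep.zero, by simp, by simp⟩

lemma Good.mono {z : Col ι ⊗[ℚ] Col ι} {t t' : ℝ} (h : Good z t) (ht : t ≤ t') : Good z t' := by
  obtain ⟨ρ, h1, h2, h3⟩ := h
  exact ⟨ρ, h1.mono ht, h2, h3⟩

lemma Good.add {z z' : Col ι ⊗[ℚ] Col ι} {t t' : ℝ} (h : Good z t) (h' : Good z' t') :
    Good (z + z') (t + t') := by
  obtain ⟨ρ, h1, h2, h3⟩ := h
  obtain ⟨σ, g1, g2, g3⟩ := h'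
  exact ⟨ρ + σ, h1.add g1, by rw [map_add, map_add, h2, g2, smul_add],
    fun x => by simp only [map_add, h3, g3]⟩

lemma Good.sum {β : Type} (s : Finset β) (z : β → Col ι ⊗[ℚ] Col ι) (t : β → ℝ)
    (h : ∀ b ∈ s, Good (z b) (t b)) : Good (∑ b ∈ s, z b) (∑ b ∈ s, t b) := by
  classical
  induction s using Finset.induction_on with
  | empty => simpa using Good.zero
  | insert b s hb ih =>
    rw [Finset.sum_insert hb, Finset.sum_insert hb]
    exact (h b (by simp)).add (ih (fun c hc => h c (by simp [hc])))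

lemma Good.nsmul {z : Col ι ⊗[ℚ] Col ι} {t : ℝ} (h : Good z t) (n : ℕ) : Good (n • z) (n * t) := by
  induction n with
  | zero => simpa using Good.zero
  | succ n ih =>
    rw [succ_nsmul]
    refine (ih.add h).mono (le_of_eq ?_)
    push_cast; ring

lemma Good.neg {z : Col ι ⊗[ℚ] Col ι} {t : ℝ} (h : Good z t) :
    Good (-z) (2 * (gramT z).trace + t) := by
  obtain ⟨ρ, h1, h2, h3⟩ := h
  refine ⟨-ρ, ?_, by rw [map_neg, map_neg, h2, smul_neg], fun x => by simp only [map_neg, h3]⟩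
  have := h1.neg
  rwa [h2, trace_smul, smul_eq_mul] at this

lemma Good.sq (u : Col ι) : Good (u ⊗ₜ u) 0 := by
  refine ⟨br u + br (-u) - 2, ⟨{u, -u}, {0, 0}, ?_, by simp [sqn]⟩, ?_, fun x => ?_⟩
  · simp [ms, br_zero, one_add_one_eq_two]
  · have e : (2 : GR (Col ι)) = br 0 + br 0 := by rw [br_zero, one_add_one_eq_two]
    rw [e, map_sub, map_add, map_add, Gam_br, Gam_br, Gam_br, gramT_tmul]
    ext i j
    simp [gram, vecMulVec]; ring
  · rw [map_sub, map_add, evR_br, evR_br, map_neg, map_ofNat, mk_sq, evT_tmul, bT_tmul]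

lemma Good.rat_sq (u : Col ι) {c : ℚ} (hc : 0 ≤ c) : Good (c • (u ⊗ₜ[ℚ] u)) 0 := by
  have h := (Good.sq (((c.den : ℚ)⁻¹) • u)).nsmul (c.num.natAbs * c.den)
  rw [mul_zero] at h
  convert h using 1
  rw [TensorProduct.smul_tmul_smul, ← Nat.cast_smul_eq_nsmul ℚ, smul_smul]
  congr 1
  have hd : (c.den : ℚ) ≠ 0 := by exact_mod_cast c.den_ne_zero
  have hn : ((c.num.natAbs : ℕ) : ℚ) = c.num := by
    rw [Nat.cast_natAbs, abs_of_nonneg (Rat.num_nonneg.mpr hc)]
  push_cast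
  rw [hn]
  field_simp
  exact Rat.mul_den_eq_num c

lemma Good.rat_sq' (u : Col ι) (c : ℚ) : Good (c • (u ⊗ₜ[ℚ] u)) (2 * |(c : ℝ)| * sqn u) := by
  rcases le_total 0 c with hc | hc
  · exact (Good.rat_sq u hc).mono (mul_nonneg (by positivity) (sqn_nonneg u))
  · have h := (Good.rat_sq u (neg_nonneg.mpr hc)).neg
    rw [_root_.neg_smul c (u ⊗ₜ[ℚ] u), neg_neg] at h
    refine h.mono (le_of_eq ?_)
    have hc' : (c : ℝ) ≤ 0 := by exact_mod_cast hc
    rw [map_neg, map_smul, gramT_tmul, trace_neg, trace_smul, abs_of_nonpos hc', Rat.smul_def]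
    have : (vecMulVec u.1 u.1).trace = sqn u := trace_gram u
    rw [this]; ring

lemma sqn_add_sub (u v : Col ι) : sqn (u + v) + sqn (u - v) = 2 * (sqn u + sqn v) := by
  simp only [sqn, Prod.fst_add, Prod.fst_sub, add_dotProduct, dotProduct_add, sub_dotProduct,
    dotProduct_sub]
  ring

lemma Good.symm_pair (u v : Col ι) (c : ℚ) :
    Good ((c / 2) • (u ⊗ₜ[ℚ] v + v ⊗ₜ[ℚ] u)) (|(c : ℝ)| * (sqn u + sqn v)) := by
  have h := (Good.rat_sq' (u + v) (c / 4)).add (Good.rat_sq' (u - v) (-(c / 4)))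
  convert h using 1
  · simp only [add_tmul, tmul_add, sub_tmul, tmul_sub]
    module
  · push_cast
    rw [abs_neg, abs_div, ← mul_add, sqn_add_sub, abs_of_pos (by norm_num : (0 : ℝ) < 4)]
    ring

/-- The tensor attached to a rational matrix and a family of columns. -/
noncomputable def Th {κ : Type} [Fintype κ] (w : κ → Col ι) (c : Matrix κ κ ℚ) :
    Col ι ⊗[ℚ] Col ι := ∑ j, ∑ k, c j k • (w j ⊗ₜ[ℚ] w k)

lemma Good.th {κ : Type} [Fintype κ] (w : κ → Col ι) (c : Matrix κ κ ℚ) (hc : c.IsSymm) :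
    Good (Th w c) (∑ j, ∑ k, |(c j k : ℝ)| * (sqn (w j) + sqn (w k))) := by
  have h := Good.sum Finset.univ _ _ (fun j _ => Good.sum Finset.univ _ _
    (fun k _ => Good.symm_pair (w j) (w k) (c j k)))
  convert h using 1
  simp only [smul_add, Finset.sum_add_distrib]
  rw [Finset.sum_comm (f := fun j k => (c j k / 2) • (w k ⊗ₜ[ℚ] w j)), ← Finset.sum_add_distrib, Th]
  refine Finset.sum_congr rfl (fun j _ => ?_)
  rw [← Finset.sum_add_distrib]
  refine Finset.sum_congr rfl (fun k _ => ?_)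
  rw [← add_smul, hc.apply j k]
  congr 1; ring

end Vale.Agent.P058
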