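import Vale.Agent.P058.BigSmall

/-!
The Ramsey statement for colourings of an abstract group.
-/

namespace Vale.Agent.P058

open Matrix

variable {ι : Type} [Fintype ι] [DecidableEq ι] {D : Type}

/-- Balanced families with small negative part. -/
def AB (a : D → ι → ℝ) : Prop :=
  ∀ M : ℝ, 0 < M → ∃ (N : ℕ) (Wp Wm : Fin N → Col ι) (g : D → Equiv.Perm (Fin N)) (μ : ℝ),
    0 < μ ∧ (∀ i k, ev (a i) (Wp k) = ev (a i) (Wm (g i k))) ∧
    ∑ k, gram (Wp k) = ∑ k, gram (Wm k) + μ • (1 : Matrix ι ι ℝ) ∧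
    (∑ k, gram (Wm k)).trace < μ / M

variable {a : D → ι → ℝ}

omit [DecidableEq ι] in
lemma Pat.transfer {F G : Type} [Group F] [Group G] {η : ℝ → F} {θ : ℝ → G} (φ : F →* G) (s : ℝ)
    (c : G) (hφ : ∀ x, φ (η x) = θ (s * x) * c) {M : Matrix ι ι ℝ} {y : D → F}
    (h : Pat a η M y) : Pat a θ ((s ^ 2) • M) (fun i => φ (y i)) := by
  induction h with
  | const c => exact (Pat.const (φ c)).congr (by simp) (fun _ => rfl)
  | col u =>
    refine ((Pat.col (s • u)).mul_const c).congr (gram_smul s u) (fun i => ?_)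
    rw [hφ, map_smul, smul_eq_mul]
  | mul _ _ h1 h2 => exact (h1.mul h2).congr (by rw [smul_add]) (fun i => by rw [map_mul])

variable {G : Type} [Group G] {θ : ℝ → G}

lemma Pat.block {α l : ℝ} {y : D → G} (h1 : Pat a θ (α • (1 : Matrix ι ι ℝ)) y)
    (h2 : Pat a θ ((α + l) • (1 : Matrix ι ι ℝ)) y) (m : ℕ) :
    ∀ j : ℕ, j ≤ m → Pat a θ ((m * α + j * l) • (1 : Matrix ι ι ℝ)) (fun i => y i ^ m) := by
  induction m with
  | zero =>
    intro j hj
    obtain rfl : j = 0 := by omega
    simpa using Pat.one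
  | succ m ih =>
    intro j hj
    rcases j with _ | j
    · refine ((ih 0 (by omega)).mul h1).congr ?_ (fun i => by rw [pow_succ])
      rw [← add_smul]; congr 1; push_cast; ring
    · refine ((ih j (by omega)).mul h2).congr ?_ (fun i => by rw [pow_succ])
      rw [← add_smul]; congr 1; push_cast; ring

lemma Pat.blocks {β : Type} {α l : ℝ} {y : D → G} (h1 : Pat a θ (α • (1 : Matrix ι ι ℝ)) y)
    (h2 : Pat a θ ((α + l) • (1 : Matrix ι ι ℝ)) y) (m : ℕ) (idx : β → Option D) (L : List β) :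
    ∀ j : ℕ, j ≤ L.countP (fun τ => (idx τ).isNone) * m →
      Pat a θ ((L.countP (fun τ => (idx τ).isNone) * (m * α) + j * l) • (1 : Matrix ι ι ℝ))
        (fun i => (L.map (fun τ => y ((idx τ).getD i) ^ m)).prod) := by
  induction L with
  | nil =>
    intro j hj
    obtain rfl : j = 0 := by simpa using hj
    simpa using Pat.one
  | cons τ L ih =>
    intro j hj
    cases hτ : idx τ with
    | none =>
      rw [List.countP_cons_of_pos (by simp [hτ])] at hj ⊢
      have e1 := h1.block h2 m (min j m) (min_le_right _ _)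
      have e2 := ih (j - min j m) (by rw [add_mul] at hj; omega)
      refine (e1.mul e2).congr ?_ (fun i => by simp [hτ])
      rw [← add_smul, Nat.cast_sub (min_le_left _ _)]; congr 1; push_cast; ring
    | some x =>
      rw [List.countP_cons_of_neg (by simp [hτ])] at hj ⊢
      exact ((ih j hj).const_mul (y x ^ m)).congr rfl (fun i => by simp [hτ])

/-- The universal letters. -/
noncomputable def univLetter (x : ℝ) : FreeGroup {x : ℝ // x ≠ 0} := by
  classical
  exact if h : x ≠ 0 then FreeGroup.of ⟨x, h⟩ else 1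

lemma univLetter_zero : univLetter 0 = 1 := by simp [univLetter]

lemma univLetter_top : Subgroup.closure (Set.range univLetter) = ⊤ := by
  rw [eq_top_iff, ← FreeGroup.closure_range_of]
  apply Subgroup.closure_mono
  rintro _ ⟨⟨x, hx⟩, rfl⟩
  exact ⟨x, by simp [univLetter, hx]⟩

theorem group_ramsey [Fintype D] [DecidableEq D] (ha : Function.Injective a) (hAB : AB a)
    (θ : ℝ → G) {K : Type} [Finite K] (c : G → K) :
    ∃ y : D → G, Pat a θ 1 y ∧ ∃ k, ∀ i, c (y i) = k := by
  obtain ⟨β, hβ, hHJ⟩ := Combinatorics.Line.exists_mono_in_high_dimension D K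
  set T := Fintype.card β with hT
  have hT0 : 0 < T := by
    obtain ⟨L, _⟩ := hHJ (fun _ => c 1)
    obtain ⟨τ, _⟩ := L.proper
    exact Fintype.card_pos_iff.mpr ⟨τ⟩
  have hT' : (0 : ℝ) < T := by exact_mod_cast hT0
  obtain ⟨N, Wp, Wm, g, μ, hμ, hg, hΓ, hs⟩ := hAB T hT'
  obtain ⟨l, y, hl, p1, p2⟩ := big_small ha univLetter_zero univLetter_top Wp Wm g hg hμ hΓ hs
  set s := Real.sqrt (1 / (T * l)) with hsdef
  have hs2 : s ^ 2 = 1 / (T * l) := Real.sq_sqrt (by positivity)
  let φ : FreeGroup {x : ℝ // x ≠ 0} →* G :=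
    FreeGroup.lift (fun x => θ (s * x.1) * (θ 0)⁻¹)
  have hφ : ∀ x, φ (univLetter x) = θ (s * x) * (θ 0)⁻¹ := by
    intro x
    by_cases hx : x = 0
    · subst hx; simp [univLetter_zero]
    · simp [univLetter, hx, φ]
  obtain ⟨L, k, hk⟩ := hHJ (fun ω => c (φ ((Finset.univ.toList.map (fun τ => y (ω τ) ^ T)).prod)))
  set t := (Finset.univ : Finset β).toList.countP (fun τ => (L.idxFun τ).isNone) with ht
  have ht1 : 0 < t := by
    obtain ⟨τ, hτ⟩ := L.proper
    exact List.countP_pos_iff.mpr ⟨τ, by simp, by simp [hτ]⟩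
  have ht2 : t ≤ T := by
    have := List.countP_le_length (p := fun τ => (L.idxFun τ).isNone)
      (l := (Finset.univ : Finset β).toList)
    rwa [Finset.length_toList, Finset.card_univ] at this
  have p3 := p1.blocks p2 T L.idxFun Finset.univ.toList (T - t) (by
    rw [← ht]
    have : T ≤ t * T := Nat.le_mul_of_pos_left T ht1
    omega)
  refine ⟨_, (p3.transfer φ s (θ 0)⁻¹ hφ).congr ?_ (fun _ => rfl), k, fun i => hk i⟩
  rw [← ht, smul_smul, Nat.cast_sub ht2, hs2]
  have : 1 / (T * l) * (t * (T * (l / T)) + (T - t) * l) = (1 : ℝ) := by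
    field_simp; ring
  rw [this, one_smul]

end Vale.Agent.P058
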