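import Vale.Agent.P058.GroupRamsey

/-!
Integral group rings of additive groups: the augmentation filtration and scaling.
-/

namespace Vale.Agent.P058

/-- Integral group ring. -/
abbrev GR (A : Type) : Type := AddMonoidAlgebra ℤ A

variable {A B : Type} [AddCommGroup A] [AddCommGroup B]

/-- Basis elements. -/
noncomputable def br (x : A) : GR A := AddMonoidAlgebra.single x 1

lemma br_add (x y : A) : br (x + y) = br x * br y := by
  simp [br, AddMonoidAlgebra.single_mul_single]

lemma br_zero : br (0 : A) = 1 := rfl

/-- Push forward. -/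
noncomputable def push (f : A →+ B) : GR A →+* GR B := AddMonoidAlgebra.mapDomainRingHom ℤ f

lemma push_br (f : A →+ B) (x : A) : push f (br x) = br (f x) := by
  simp [push, br]

lemma gr_induction {P : GR A → Prop} (h0 : P 0) (hbr : ∀ x, P (br x))
    (hadd : ∀ x y, P x → P y → P (x + y)) (hneg : ∀ x, P x → P (-x)) (ρ : GR A) : P ρ := by
  induction ρ using AddMonoidAlgebra.induction_linear with
  | zero => exact h0
  | add x y hx hy => exact hadd x y hx hy
  | single x z =>
    induction z using Int.induction_on with
    | zero => simpa using h0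
    | succ n ih => rw [AddMonoidAlgebra.single_add]; exact hadd _ _ ih (hbr x)
    | pred n ih =>
      rw [sub_eq_add_neg, AddMonoidAlgebra.single_add, AddMonoidAlgebra.single_neg _ 1]
      exact hadd _ _ ih (hneg _ (hbr x))

lemma push_push {C : Type} [AddCommGroup C] (f : A →+ B) (g : B →+ C) (ρ : GR A) :
    push g (push f ρ) = push (g.comp f) ρ := by
  induction ρ using gr_induction with
  | h0 => simp
  | hbr x => simp [push_br]
  | hadd x y hx hy => simp [hx, hy]
  | hneg x hx => simp [hx]

lemma push_id (ρ : GR A) : push (AddMonoidHom.id A) ρ = ρ := by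
  induction ρ using gr_induction with
  | h0 => simp
  | hbr x => simp [push_br]
  | hadd x y hx hy => simp [hx, hy]
  | hneg x hx => simp [hx]

/-- Additive extension of a function on the basis. -/
noncomputable def lin {M : Type} [AddCommGroup M] (f : A → M) : GR A →+ M :=
  (Finsupp.liftAddHom (fun u => zmultiplesHom M (f u))).comp
    AddMonoidAlgebra.coeffAddEquiv.toAddMonoidHom

lemma lin_br {M : Type} [AddCommGroup M] (f : A → M) (x : A) : lin f (br x) = f x := by
  simp [lin, br]

/-- The augmentation ideal. -/
noncomputable def aug (A : Type) [AddCommGroup A] : Ideal (GR A) :=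
  Ideal.span (Set.range (fun x : A => br x - 1))

lemma br_sub_one_mem (x : A) : br x - 1 ∈ aug A := Ideal.subset_span ⟨x, rfl⟩

lemma sub_push_mem (f : A →+ A) (ξ : GR A) : ξ - push f ξ ∈ aug A := by
  induction ξ using gr_induction with
  | h0 => simp
  | hbr x =>
    rw [push_br, show br x - br (f x) = (br x - 1) - (br (f x) - 1) by ring]
    exact sub_mem (br_sub_one_mem _) (br_sub_one_mem _)
  | hadd x y hx hy =>
    rw [map_add, show x + y - (push f x + push f y) = (x - push f x) + (y - push f y) by ring]
    exact add_mem hx hy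
  | hneg x hx =>
    rw [map_neg, show -x - -push f x = -(x - push f x) by ring]
    exact neg_mem hx

lemma push_mem_aug (f : A →+ B) {b : GR A} (hb : b ∈ aug A) : push f b ∈ aug B := by
  induction hb using Submodule.span_induction with
  | mem x hx =>
    obtain ⟨x, rfl⟩ := hx
    simp only [map_sub, push_br, map_one]
    exact br_sub_one_mem _
  | zero => simp
  | add x y _ _ hx hy => rw [map_add]; exact add_mem hx hy
  | smul r x _ hx => rw [smul_eq_mul, map_mul]; exact Ideal.mul_mem_left _ _ hx

lemma nsmul_br_mem (l : ℕ) (x : A) : (l : GR A) * (br x - 1) - (br (l • x) - 1) ∈ aug A ^ 2 := by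
  induction l with
  | zero => simp [br_zero]
  | succ l ih =>
    rw [succ_nsmul, br_add]
    have : ((l + 1 : ℕ) : GR A) * (br x - 1) - (br (l • x) * br x - 1)
        = ((l : GR A) * (br x - 1) - (br (l • x) - 1)) - (br (l • x) - 1) * (br x - 1) := by
      push_cast; ring
    rw [this]
    refine sub_mem ih ?_
    rw [pow_two]
    exact Ideal.mul_mem_mul (br_sub_one_mem _) (br_sub_one_mem _)

lemma scale_mem_sq (l : ℕ) {b : GR A} (hb : b ∈ aug A) :
    (l : GR A) * b - push (nsmulAddMonoidHom l) b ∈ aug A ^ 2 := by
  induction hb using Submodule.span_induction with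
  | mem x hx =>
    obtain ⟨x, rfl⟩ := hx
    simp only [map_sub, push_br, map_one]
    exact nsmul_br_mem l x
  | zero => simp
  | add x y _ _ hx hy =>
    rw [map_add, show (l : GR A) * (x + y) - (push (nsmulAddMonoidHom l) x +
      push (nsmulAddMonoidHom l) y) = ((l : GR A) * x - push (nsmulAddMonoidHom l) x) +
      ((l : GR A) * y - push (nsmulAddMonoidHom l) y) by ring]
    exact add_mem hx hy
  | smul r x hx0 hx =>
    rw [smul_eq_mul, map_mul, show (l : GR A) * (r * x) - push (nsmulAddMonoidHom l) r *
      push (nsmulAddMonoidHom l) x = r * ((l : GR A) * x - push (nsmulAddMonoidHom l) x) +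
      (r - push (nsmulAddMonoidHom l) r) * push (nsmulAddMonoidHom l) x by ring]
    refine add_mem (Ideal.mul_mem_left _ _ hx) ?_
    rw [pow_two]
    exact Ideal.mul_mem_mul (sub_push_mem _ _) (push_mem_aug _ hx0)

lemma scale_mem_pow (l k : ℕ) : ∀ ξ ∈ aug A ^ k,
    (l : GR A) ^ k * ξ - push (nsmulAddMonoidHom l) ξ ∈ aug A ^ (k + 1) := by
  induction k with
  | zero => intro ξ _; simpa using sub_push_mem _ ξ
  | succ k ih =>
    intro ξ hξ
    rw [pow_succ'] at hξ
    refine Submodule.mul_induction_on hξ ?_ ?_
    · intro b hb x hx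
      rw [map_mul, show (l : GR A) ^ (k + 1) * (b * x) - push (nsmulAddMonoidHom l) b *
        push (nsmulAddMonoidHom l) x = ((l : GR A) * b - push (nsmulAddMonoidHom l) b) *
        ((l : GR A) ^ k * x) + push (nsmulAddMonoidHom l) b *
        ((l : GR A) ^ k * x - push (nsmulAddMonoidHom l) x) by ring]
      refine add_mem ?_ ?_
      · rw [show k + 1 + 1 = 2 + k by ring, pow_add]
        exact Ideal.mul_mem_mul (scale_mem_sq l hb) (Ideal.mul_mem_left _ _ hx)
      · rw [pow_succ' _ (k + 1)]
        exact Ideal.mul_mem_mul (push_mem_aug _ hb) (ih x hx)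
    · intro x y hx hy
      rw [map_add, show (l : GR A) ^ (k + 1) * (x + y) - (push (nsmulAddMonoidHom l) x +
        push (nsmulAddMonoidHom l) y) = ((l : GR A) ^ (k + 1) * x - push (nsmulAddMonoidHom l) x) +
        ((l : GR A) ^ (k + 1) * y - push (nsmulAddMonoidHom l) y) by ring]
      exact add_mem hx hy

/-- The group ring element of a multiset. -/
noncomputable def ms (W : Multiset A) : GR A := (W.map br).sum

lemma ms_zero : ms (0 : Multiset A) = 0 := by simp [ms]

lemma ms_add (W W' : Multiset A) : ms (W + W') = ms W + ms W' := by simp [ms]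

lemma ms_singleton (x : A) : ms {x} = br x := by simp [ms]

lemma ms_cons (x : A) (W : Multiset A) : ms (x ::ₘ W) = br x + ms W := by simp [ms]

lemma push_ms (f : A →+ B) (W : Multiset A) : push f (ms W) = ms (W.map f) := by
  induction W using Multiset.induction_on with
  | empty => simp [ms]
  | cons x W ih => rw [Multiset.map_cons, ms_cons, ms_cons, map_add, ih, push_br]

lemma lin_ms {M : Type} [AddCommGroup M] (f : A → M) (W : Multiset A) :
    lin f (ms W) = (W.map f).sum := by
  induction W using Multiset.induction_on with
  | empty => simp [ms]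
  | cons x W ih => rw [Multiset.map_cons, ms_cons, map_add, ih, lin_br, Multiset.sum_cons]

lemma ms_injective {W W' : Multiset A} (h : ms W = ms W') : W = W' := by
  classical
  ext x
  have key : ∀ V : Multiset A, lin (fun y => if x = y then (1 : ℤ) else 0) (ms V) = V.count x := by
    intro V
    rw [lin_ms]
    induction V using Multiset.induction_on with
    | empty => simp
    | cons y V ih =>
      rw [Multiset.map_cons, Multiset.sum_cons, ih, Multiset.count_cons]
      push_cast
      rw [add_comm]
  have := key W
  rw [h, key W'] at this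
  exact_mod_cast this.symm

lemma br_mul_ms (x : A) (W : Multiset A) : br x * ms W = ms (W.map (x + ·)) := by
  induction W using Multiset.induction_on with
  | empty => simp [ms]
  | cons y W ih => rw [Multiset.map_cons, ms_cons, ms_cons, mul_add, ih, br_add]

lemma exists_ms_mul (W W' : Multiset A) :
    ∃ V : Multiset A, ms V = ms W * ms W' ∧ V.card = W.card * W'.card := by
  induction W using Multiset.induction_on with
  | empty => exact ⟨0, by simp [ms], by simp⟩
  | cons x W ih =>
    obtain ⟨V, h1, h2⟩ := ih
    refine ⟨W'.map (x + ·) + V, ?_, ?_⟩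
    · rw [ms_add, ms_cons, add_mul, h1, br_mul_ms]
    · simp [h2]; ring

lemma geom_ms (x : A) (m : ℕ) :
    (br x - 1) * ms ((Multiset.range m).map (fun j => j • x)) = br (m • x) - 1 := by
  induction m with
  | zero => simp [ms, br_zero]
  | succ m ih =>
    rw [Multiset.range_succ, Multiset.map_cons, ms_cons, mul_add, ih, succ_nsmul, br_add]
    ring

end Vale.Agent.P058
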