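import Vale.Agent.P058.Trans

/-!
The cyclic kite with a transcendental parameter is not subtransitive.
-/

namespace Vale.Agent.P058

open Polynomial

lemma convex_rel {G : Type} [Group G] [Fintype G] (F : G → ℝ) (g2 g3 g4 : G) {b : ℝ} (hb : 1 < b)
    (h : ∀ σ, F (σ * g3) + F (σ * g4) = (1 + b) * F (σ * g2) + (1 - b) * F σ) : F g2 = F 1 := by
  have hN : ∀ g, ∑ σ, F (σ * g) ^ 2 = ∑ σ, F σ ^ 2 := fun g =>
    Equiv.sum_comp (Equiv.mulRight g) (fun σ => F σ ^ 2)
  have key : ∀ σ, (b - 1) * (F (σ * g2) - F σ) ^ 2 ≤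
      F (σ * g3) ^ 2 + F (σ * g4) ^ 2 - (1 + b) * F (σ * g2) ^ 2 + (b - 1) * F σ ^ 2 := by
    intro σ
    have h1 := h σ
    have h2 := sq_nonneg (F (σ * g3) - F (σ * g2))
    have h3 := sq_nonneg (F (σ * g4) - F (σ * g2))
    have h4 : F (σ * g2) * (F (σ * g3) + F (σ * g4)) =
        F (σ * g2) * ((1 + b) * F (σ * g2) + (1 - b) * F σ) := by rw [h1]
    nlinarith
  have hs := Finset.sum_le_sum (s := Finset.univ) (fun σ _ => key σ)
  rw [Finset.sum_add_distrib, Finset.sum_sub_distrib, Finset.sum_add_distrib, ← Finset.mul_sum,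
    ← Finset.mul_sum, ← Finset.mul_sum, hN, hN, hN] at hs
  have h0 : ∑ σ, (F (σ * g2) - F σ) ^ 2 ≤ 0 := by nlinarith
  have h1 := Finset.single_le_sum (f := fun σ => (F (σ * g2) - F σ) ^ 2)
    (fun σ _ => sq_nonneg _) (Finset.mem_univ (1 : G))
  simp only [one_mul] at h1
  have h2 : (F g2 - F 1) ^ 2 = 0 := le_antisymm (h1.trans h0) (sq_nonneg _)
  exact sub_eq_zero.mp (pow_eq_zero_iff (by norm_num) |>.mp h2)

lemma transc_rel {G : Type} [Group G] [Fintype G] (F : G → ℝ) (g2 g3 g4 : G) {a : ℝ}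
    (ha : Transcendental ℚ a) (ha1 : -1 < a)
    (h : ∀ σ, F (σ * g3) + F (σ * g4) = (1 + a) * F (σ * g2) + (1 - a) * F σ) : F g2 = F 1 := by
  by_contra hne
  have ha' : Transcendental ℚ (a + 2) := by
    have := ha.aeval (X + C 2) (by rw [natDegree_X_add_C]; norm_num)
      (by rw [leadingCoeff_X_add_C]; exact one_mem _)
    simpa using this
  let e : ∀ {x : ℝ}, Transcendental ℚ x → (FractionRing ℚ[X] →+* ℝ) := fun {x} hx =>
    IsFractionRing.lift (g := (aeval x : ℚ[X] →ₐ[ℚ] ℝ).toRingHom)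
      (transcendental_iff_injective.mp hx)
  have he : ∀ {x : ℝ} (hx : Transcendental ℚ x), e hx (algebraMap ℚ[X] _ X) = x := by
    intro x hx
    simp [e]
  let : Algebra (FractionRing ℚ[X]) ℝ := (e ha).toAlgebra
  obtain ⟨π, h1, -⟩ := Submodule.exists_le_ker_of_notMem (K := FractionRing ℚ[X]) (V := ℝ)
    (p := ⊥) (v := F g2 - F 1) (by simpa using sub_ne_zero.mpr hne)
  have hsm : ∀ (k : FractionRing ℚ[X]) (r : ℝ), e ha k * r = k • r := fun _ _ => rfl
  have key := convex_rel (fun σ => e ha' (π (F σ))) g2 g3 g4 (b := a + 2) (by linarith) (by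
    intro σ
    have h2 : F (σ * g3) + F (σ * g4) =
        (1 + algebraMap ℚ[X] (FractionRing ℚ[X]) X) • F (σ * g2) +
        (1 - algebraMap ℚ[X] (FractionRing ℚ[X]) X) • F σ := by
      rw [← hsm, ← hsm, map_add, map_sub, map_one, he ha, h]
    have h3 := congrArg (fun r => e ha' (π r)) h2
    simp only [map_add, map_smul, smul_eq_mul, map_mul, map_sub, map_one, he] at h3
    exact h3)
  apply h1
  rw [map_sub, sub_eq_zero]
  exact (e ha').injective key

theorem not_subtransitive_of_rel {d : ℕ} {A : Finset (EuclideanSpace ℝ (Fin d))}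
    (x1 x2 x3 x4 : A) (h12 : x1 ≠ x2) {a : ℝ} (ha : Transcendental ℚ a) (ha1 : -1 < a)
    (hrel : (x3 : EuclideanSpace ℝ (Fin d)) + x4 = (1 + a) • (x2 : EuclideanSpace ℝ (Fin d)) +
      (1 - a) • (x1 : EuclideanSpace ℝ (Fin d))) : ¬ IsSubtransitive A := by
  classical
  rintro ⟨n, X, hX, f, hf, hm⟩
  let y : A → X := fun x => ⟨f x, hm x⟩
  choose g hg using fun x : A => hX.exists_isoPerm (y x1) (y x)
  have hσ : ∀ σ : isoPerm X, (σ.1 (y x3) : EuclideanSpace ℝ (Fin n)) + σ.1 (y x4) =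
      (1 + a) • (σ.1 (y x2) : EuclideanSpace ℝ (Fin n)) +
      (1 - a) • (σ.1 (y x1) : EuclideanSpace ℝ (Fin n)) := by
    intro σ
    obtain ⟨U, V, -, hU, -⟩ := exists_linear_ext (fun x : A => (x : EuclideanSpace ℝ (Fin d)))
      (fun x => (σ.1 (y x) : EuclideanSpace ℝ (Fin n))) (fun i j => by rw [σ.2, hf]) x1
    have e : ((x3 : EuclideanSpace ℝ (Fin d)) - x1) + (x4 - x1) =
        (1 + a) • ((x2 : EuclideanSpace ℝ (Fin d)) - x1) := by
      linear_combination (norm := module) hrel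
    have e2 := congrArg U e
    rw [map_add, map_smul, hU, hU, hU] at e2
    linear_combination (norm := module) e2
  have hy : f x2 = f x1 := by
    ext k
    have := transc_rel (fun σ : isoPerm X => (σ.1 (y x1) : EuclideanSpace ℝ (Fin n)) k)
      (g x2) (g x3) (g x4) ha ha1 (by
        intro σ
        have h1 := congrArg (fun z : EuclideanSpace ℝ (Fin n) => z k) (hσ σ)
        simp only [Subgroup.coe_mul, Equiv.Perm.mul_apply, hg]
        simpa using h1)
    simp only [hg] at this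
    simpa using this
  have := hf x2 x1
  rw [hy, dist_self] at this
  exact h12 (Subtype.ext (dist_eq_zero.mp this.symm)).symm

/-- The vertices of the kite. -/
noncomputable def kitePts (a : ℝ) : Finset (EuclideanSpace ℝ (Fin 2)) := by
  classical
  exact {!₂[-1, 0], !₂[1, 0], !₂[a, Real.sqrt (1 - a ^ 2)], !₂[a, -Real.sqrt (1 - a ^ 2)]}

theorem kite_not_subtransitive {a : ℝ} (ha : Transcendental ℚ a) (ha1 : -1 < a) :
    ¬ IsSubtransitive (kitePts a) := by
  refine not_subtransitive_of_rel (a := a) ⟨!₂[-1, 0], by simp [kitePts]⟩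
    ⟨!₂[1, 0], by simp [kitePts]⟩ ⟨!₂[a, Real.sqrt (1 - a ^ 2)], by simp [kitePts]⟩
    ⟨!₂[a, -Real.sqrt (1 - a ^ 2)], by simp [kitePts]⟩ ?_ ha ha1 ?_
  · intro h
    have := congrArg (fun z : kitePts a => (z : EuclideanSpace ℝ (Fin 2)) 0) h
    simp at this
    linarith
  · ext k
    fin_cases k
    · simp; ring
    · simp

theorem kite_ramsey {a : ℝ} (ha1 : -1 < a) (ha2 : a < 1) : IsRamsey (kitePts a) := by
  classical
  refine ramsey_of_five _ ⟨!₂[-1, 0], by simp [kitePts]⟩ ?_ 0 1 ?_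
  · exact Finset.card_le_four.trans (by norm_num)
  · have h0 : 0 ≤ 1 - a ^ 2 := by nlinarith
    intro x hx
    simp only [kitePts, Finset.mem_insert, Finset.mem_singleton] at hx
    rw [← sq_eq_sq₀ dist_nonneg zero_le_one, EuclideanSpace.dist_sq_eq, Fin.sum_univ_two]
    rcases hx with rfl | rfl | rfl | rfl <;> simp [Real.sq_sqrt h0]

lemma exists_transcendental_Ioo : ∃ a : ℝ, Transcendental ℚ a ∧ -1 < a ∧ a < 1 := by
  by_contra h
  push Not at h
  have hsub : Set.Ioo (-1 : ℝ) 1 ⊆ {x : ℝ | IsAlgebraic ℚ x} := by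
    intro x hx
    by_contra hx'
    exact absurd hx.2 (not_lt.mpr (h x hx' hx.1))
  have hc := (Algebraic.countable ℚ ℝ).mono hsub
  have := Cardinal.mk_Ioo_real (show (-1 : ℝ) < 1 by norm_num)
  rw [← Cardinal.le_aleph0_iff_set_countable, this] at hc
  exact absurd hc (not_le.mpr Cardinal.aleph0_lt_continuum)

end Vale.Agent.P058
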