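import Vale.Agent.P058.Defs
import Vale.Agent.P058.Decomp

/-!
Necessity of the tensor condition.
-/

namespace Vale.Agent.P058

open Matrix TensorProduct

lemma exists_factor {K V W X : Type} [Field K] [AddCommGroup V] [Module K V] [AddCommGroup W]
    [Module K W] [AddCommGroup X] [Module K X] (L : V →ₗ[K] W) (g : V →ₗ[K] X)
    (h : LinearMap.ker L ≤ LinearMap.ker g) : ∃ f : W →ₗ[K] X, ∀ v, f (L v) = g v := by
  obtain ⟨f, hf⟩ := LinearMap.exists_extend
    (((LinearMap.ker L).liftQ g h).comp L.quotKerEquivRange.symm.toLinearMap)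
  refine ⟨f, fun v => ?_⟩
  have := LinearMap.congr_fun hf ⟨L v, LinearMap.mem_range_self L v⟩
  simp only [LinearMap.comp_apply, Submodule.subtype_apply, LinearEquiv.coe_coe] at this
  rw [this, LinearMap.quotKerEquivRange_symm_apply_image]
  simp

lemma exists_linear_ext {D E F : Type} [Fintype D] [NormedAddCommGroup E] [InnerProductSpace ℝ E]
    [NormedAddCommGroup F] [InnerProductSpace ℝ F] (a : D → E) (f : D → F)
    (h : ∀ i j, dist (f i) (f j) = dist (a i) (a j)) (o : D) :
    ∃ (U : E →ₗ[ℝ] F) (V : Submodule ℝ E), (∀ i, a i - a o ∈ V) ∧ (∀ i, U (a i - a o) = f i - f o) ∧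
      ∀ v ∈ V, ∀ w ∈ V, inner ℝ (U v) (U w) = inner ℝ v w := by
  classical
  have hin : ∀ i j, inner ℝ (f i - f o) (f j - f o) = inner ℝ (a i - a o) (a j - a o) := by
    intro i j
    rw [real_inner_eq_norm_mul_self_add_norm_mul_self_sub_norm_sub_mul_self_div_two,
      real_inner_eq_norm_mul_self_add_norm_mul_self_sub_norm_sub_mul_self_div_two,
      sub_sub_sub_cancel_right, sub_sub_sub_cancel_right]
    simp only [← dist_eq_norm, h]
  let φ : (D → ℝ) →ₗ[ℝ] E := Fintype.linearCombination ℝ (fun i => a i - a o)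
  let ψ : (D → ℝ) →ₗ[ℝ] F := Fintype.linearCombination ℝ (fun i => f i - f o)
  have hφψ : ∀ c c', inner ℝ (ψ c) (ψ c') = inner ℝ (φ c) (φ c') := by
    intro c c'
    simp only [φ, ψ, Fintype.linearCombination_apply, sum_inner, inner_sum, real_inner_smul_left,
      real_inner_smul_right, hin]
  obtain ⟨U, hU⟩ := exists_factor φ ψ (by
    intro c hc
    rw [LinearMap.mem_ker] at hc ⊢
    rw [← inner_self_eq_zero (𝕜 := ℝ), hφψ, hc, inner_zero_left])
  have h1 : ∀ i, φ (Pi.single i 1) = a i - a o := fun i => by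
    simp [φ, Fintype.linearCombination_apply_single]
  have h2 : ∀ i, ψ (Pi.single i 1) = f i - f o := fun i => by
    simp [ψ, Fintype.linearCombination_apply_single]
  refine ⟨U, LinearMap.range φ, fun i => ⟨_, h1 i⟩, fun i => by rw [← h1, hU, h2], ?_⟩
  rintro _ ⟨c, rfl⟩ _ ⟨c', rfl⟩
  rw [hU, hU, hφψ]

/-- The universal quadratic invariant. -/
noncomputable def Qinv {n : ℕ} (y : EuclideanSpace ℝ (Fin n)) : ℝ ⊗[ℚ] ℝ := ∑ k, y k ⊗ₜ[ℚ] y k

lemma exists_tensor_of_copy {D : Type} [Fintype D] [Nonempty D] {d n : ℕ}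
    (a : D → EuclideanSpace ℝ (Fin d)) (f : D → EuclideanSpace ℝ (Fin n))
    (h : ∀ i j, dist (f i) (f j) = dist (a i) (a j)) :
    ∃ b : Col (Fin d) ⊗[ℚ] Col (Fin d), gramT b = 1 ∧
      ∀ i, evT (fun α => a i α) b = Qinv (f i) := by
  classical
  obtain ⟨o⟩ := ‹Nonempty D›
  obtain ⟨U, V, hV, hU, hI⟩ := exists_linear_ext a f h o
  let e : Fin d → EuclideanSpace ℝ (Fin d) := fun α => EuclideanSpace.single α 1
  have hexp : ∀ x : EuclideanSpace ℝ (Fin d), x = ∑ α, x α • e α := by
    intro x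
    ext β
    simp [e, Pi.single_apply]
  let P : EuclideanSpace ℝ (Fin d) →ₗ[ℝ] EuclideanSpace ℝ (Fin n) :=
    U.comp (V.starProjection : EuclideanSpace ℝ (Fin d) →L[ℝ] _).toLinearMap
  let R : EuclideanSpace ℝ (Fin d) →ₗ[ℝ] EuclideanSpace ℝ (Fin d) :=
    LinearMap.id - (V.starProjection : EuclideanSpace ℝ (Fin d) →L[ℝ] _).toLinearMap
  have hlin : ∀ {m : ℕ} (T : EuclideanSpace ℝ (Fin d) →ₗ[ℝ] EuclideanSpace ℝ (Fin m))
      (x : EuclideanSpace ℝ (Fin d)) (k : Fin m),
      (fun α => T (e α) k) ⬝ᵥ (fun α => x α) = T x k := by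
    intro m T x k
    conv_rhs => rw [hexp x]
    simp [dotProduct, mul_comm]
  let u : Fin n → Col (Fin d) := fun k => (fun α => P (e α) k, f o k - P (a o) k)
  let v : Fin d → Col (Fin d) := fun k => (fun α => R (e α) k, -R (a o) k)
  have hu : ∀ i k, ev (fun α => a i α) (u k) = f i k := by
    intro i k
    rw [ev_apply, hlin]
    have h1 : P (a i) - P (a o) = f i - f o := by
      rw [← map_sub, ← hU]
      simp only [P, LinearMap.comp_apply, ContinuousLinearMap.coe_coe]
      rw [Submodule.starProjection_eq_self_iff.mpr (hV i)]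
    have h2 := congrArg (fun z : EuclideanSpace ℝ (Fin n) => z k) h1
    simp only [PiLp.sub_apply] at h2
    simp only [u]
    linarith
  have hv : ∀ i k, ev (fun α => a i α) (v k) = 0 := by
    intro i k
    rw [ev_apply, hlin]
    have h1 : R (a i) - R (a o) = 0 := by
      rw [← map_sub]
      simp only [R, LinearMap.sub_apply, LinearMap.id_apply, ContinuousLinearMap.coe_coe]
      rw [Submodule.starProjection_eq_self_iff.mpr (hV i), sub_self]
    have h2 := congrArg (fun z : EuclideanSpace ℝ (Fin d) => z k) h1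
    simp only [PiLp.sub_apply, PiLp.zero_apply] at h2
    simp only [v]
    linarith
  refine ⟨∑ k, u k ⊗ₜ u k + ∑ k, v k ⊗ₜ v k, ?_, fun i => ?_⟩
  · ext α β
    simp only [map_add, map_sum, gramT_tmul, Matrix.add_apply, Matrix.sum_apply, vecMulVec,
      of_apply, u, v]
    have e1 : ∑ k, P (e α) k * P (e β) k = inner ℝ (P (e α)) (P (e β)) := by
      simp [PiLp.inner_apply, mul_comm]
    have e2 : ∑ k, R (e α) k * R (e β) k = inner ℝ (R (e α)) (R (e β)) := by
      simp only [PiLp.inner_apply, RCLike.inner_apply, conj_trivial, mul_comm]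
    have e3 : (1 : Matrix (Fin d) (Fin d) ℝ) α β = inner ℝ (e α) (e β) := by
      simp [e, EuclideanSpace.inner_single_left, one_apply]
    rw [e1, e2, e3]
    simp only [P, R, LinearMap.comp_apply, LinearMap.sub_apply, LinearMap.id_apply,
      ContinuousLinearMap.coe_coe]
    rw [hI _ (V.starProjection_apply_mem _) _ (V.starProjection_apply_mem _)]
    have k1 := V.starProjection_inner_eq_zero (e α) _ (V.starProjection_apply_mem (e β))
    have k2 := V.starProjection_inner_eq_zero (e β) _ (V.starProjection_apply_mem (e α))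
    rw [real_inner_comm] at k2
    simp only [inner_sub_left, inner_sub_right] at k1 k2 ⊢
    linarith
  · simp only [map_add, map_sum, evT_tmul, hu, hv, Qinv]
    simp

end Vale.Agent.P058
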