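import Vale.Agent.P058.Nec

/-!
Necessity of the tensor condition: duality and the colouring.
-/

namespace Vale.Agent.P058

open Matrix TensorProduct

variable {ι : Type} [Fintype ι] [DecidableEq ι] {D : Type}

/-- Scaling of the first tensor factor. -/
noncomputable def scl (r : ℝ) : Col ι ⊗[ℚ] Col ι →ₗ[ℚ] Col ι ⊗[ℚ] Col ι :=
  TensorProduct.map ((r • LinearMap.id : Col ι →ₗ[ℝ] Col ι).restrictScalars ℚ) LinearMap.id

omit [Fintype ι] [DecidableEq ι] in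
lemma scl_tmul (r : ℝ) (u v : Col ι) : scl r (u ⊗ₜ v) = (r • u) ⊗ₜ v := rfl

omit [DecidableEq ι] [Fintype ι] in
lemma gramT_scl (r : ℝ) (b : Col ι ⊗[ℚ] Col ι) : gramT (scl r b) = r • gramT b := by
  induction b using TensorProduct.induction_on with
  | zero => simp
  | tmul u v => rw [scl_tmul]; ext i j; simp [gramT, vecMulVec, mul_assoc]
  | add x y hx hy => rw [map_add, map_add, map_add, hx, hy, smul_add]

omit [DecidableEq ι] in
lemma evT_scl (x : ι → ℝ) (r : ℝ) (b : Col ι ⊗[ℚ] Col ι) :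
    evT x (scl r b) = (r ⊗ₜ[ℚ] (1 : ℝ)) * evT x b := by
  induction b using TensorProduct.induction_on with
  | zero => simp
  | tmul u v =>
    change ev x (r • u) ⊗ₜ[ℚ] ev x v = (r ⊗ₜ[ℚ] (1 : ℝ)) * (ev x u ⊗ₜ[ℚ] ev x v)
    rw [Algebra.TensorProduct.tmul_mul_tmul, map_smul, one_mul, smul_eq_mul]
  | add x y hx hy => rw [map_add, map_add, map_add, hx, hy, mul_add]

omit [DecidableEq ι] in
lemma exists_const_tensor (z : ℝ ⊗[ℚ] ℝ) :
    ∃ b : Col ι ⊗[ℚ] Col ι, gramT b = 0 ∧ ∀ x, evT x b = z := by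
  induction z using TensorProduct.induction_on with
  | zero => exact ⟨0, by simp, by simp⟩
  | tmul r s =>
    refine ⟨((0, r) : Col ι) ⊗ₜ ((0, s) : Col ι), ?_, fun x => ?_⟩
    · ext i j; simp [gramT, vecMulVec]
    · change ev x _ ⊗ₜ[ℚ] ev x _ = _
      simp [ev_apply]
  | add x y hx hy =>
    obtain ⟨b, h1, h2⟩ := hx
    obtain ⟨c, g1, g2⟩ := hy
    exact ⟨b + c, by rw [map_add, h1, g1, add_zero], fun x => by rw [map_add, h2, g2]⟩

lemma TC.of_const {a : D → ι → ℝ} (b : Col ι ⊗[ℚ] Col ι) (z : ℝ ⊗[ℚ] ℝ) (h1 : gramT b = 1)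
    (h2 : ∀ i, evT (a i) b = z) : TC a := by
  obtain ⟨c, g1, g2⟩ := exists_const_tensor (ι := ι) z
  exact ⟨b - c, fun i => by rw [map_sub, h2, g2, sub_self], by rw [map_sub, h1, g1, sub_zero]⟩

lemma exists_dual [Fintype D] {a : D → ι → ℝ} (h : ¬ TC a) (o : D) :
    ∃ f : D → (ℝ ⊗[ℚ] ℝ →ₗ[ℚ] ℝ), ∀ b : Col ι ⊗[ℚ] Col ι, gramT b = 1 →
      ∑ i, (f i (evT (a i) b) - f i (evT (a o) b)) = 1 := by
  classical
  let 𝒢 : Submodule ℝ (Matrix ι ι ℝ) :=
    { carrier := {M | ∃ b : Col ι ⊗[ℚ] Col ι, gramT b = M ∧ ∀ i, evT (a i) b = evT (a o) b}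
      add_mem' := by
        rintro _ _ ⟨b, rfl, hb⟩ ⟨c, rfl, hc⟩
        exact ⟨b + c, map_add _ _ _, fun i => by rw [map_add, map_add, hb, hc]⟩
      zero_mem' := ⟨0, map_zero _, fun i => by simp⟩
      smul_mem' := by
        rintro r _ ⟨b, rfl, hb⟩
        exact ⟨scl r b, gramT_scl r b, fun i => by rw [evT_scl, evT_scl, hb]⟩ }
  have h1 : (1 : Matrix ι ι ℝ) ∉ 𝒢 := by
    rintro ⟨b, hb1, hb2⟩
    exact h (TC.of_const b _ hb1 hb2)
  obtain ⟨s, hs1, hs2⟩ := Submodule.exists_le_ker_of_notMem h1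
  let L : Col ι ⊗[ℚ] Col ι →ₗ[ℚ] (D → ℝ ⊗[ℚ] ℝ) :=
    LinearMap.pi (fun i => evT (a i) - evT (a o))
  obtain ⟨F, hF⟩ := exists_factor L ((((s 1)⁻¹ • s).restrictScalars ℚ).comp gramT) (by
    intro b hb
    rw [LinearMap.mem_ker] at hb ⊢
    have : gramT b ∈ 𝒢 := ⟨b, rfl, fun i => sub_eq_zero.mp (congrFun hb i)⟩
    have := hs2 this
    rw [LinearMap.mem_ker] at this
    simp [this])
  refine ⟨fun i => F.comp (LinearMap.single ℚ (fun _ => ℝ ⊗[ℚ] ℝ) i), fun b hb => ?_⟩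
  have e := hF b
  simp only [LinearMap.comp_apply, LinearMap.restrictScalars_apply, hb, LinearMap.smul_apply,
    smul_eq_mul, inv_mul_cancel₀ hs1] at e
  rw [← e]
  conv_rhs => rw [← Finset.univ_sum_single (L b)]
  rw [map_sum]
  refine Finset.sum_congr rfl (fun i _ => ?_)
  rw [← map_sub]
  rfl

theorem TC_of_ramsey {d : ℕ} (A : Finset (EuclideanSpace ℝ (Fin d))) (hA : A.Nonempty)
    (h : IsRamsey A) : TC (fun x : A => fun α => (x : EuclideanSpace ℝ (Fin d)) α) := by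
  classical
  by_contra hcon
  have hne : Nonempty A := hA.to_subtype
  obtain ⟨o⟩ := hne
  have : Nonempty A := ⟨o⟩
  obtain ⟨f, hf⟩ := exists_dual hcon o
  set n := Fintype.card A with hn
  have hn0 : 0 < n := Fintype.card_pos
  have : NeZero (2 * n) := ⟨by omega⟩
  obtain ⟨emb⟩ : Nonempty ((A → ZMod (2 * n)) ↪ Fin (Fintype.card (A → ZMod (2 * n)) + 2)) :=
    Function.Embedding.nonempty_of_card_le (by simp)
  obtain ⟨m, -, hm⟩ := h _ (Nat.le_add_left 2 _)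
  obtain ⟨g, hg, k, hk⟩ := hm (fun y => emb (fun i => ((⌊(n : ℝ) * f i (Qinv y)⌋ : ℤ) : ZMod (2 * n))))
  obtain ⟨b, hb1, hb2⟩ := exists_tensor_of_copy
    (fun x : A => (x : EuclideanSpace ℝ (Fin d))) g hg
  have hsum := hf b hb1
  simp only [hb2] at hsum
  have hmod : ∀ i : A, ∃ z : ℤ, ⌊(n : ℝ) * f i (Qinv (g i))⌋ - ⌊(n : ℝ) * f i (Qinv (g o))⌋
      = (2 * n : ℕ) * z := by
    intro i
    have e := congrFun (emb.injective ((hk o).trans (hk i).symm)) i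
    exact (ZMod.intCast_eq_intCast_iff_dvd_sub _ _ _).mp e
  choose z hz using hmod
  have hlt : ∀ i : A, |(n : ℝ) * (f i (Qinv (g i)) - f i (Qinv (g o))) - 2 * n * z i| < 1 := by
    intro i
    have e : ((⌊(n : ℝ) * f i (Qinv (g i))⌋ : ℤ) : ℝ) - (⌊(n : ℝ) * f i (Qinv (g o))⌋ : ℤ)
        = 2 * n * z i := by exact_mod_cast hz i
    have a1 := Int.floor_le ((n : ℝ) * f i (Qinv (g i)))
    have a2 := Int.lt_floor_add_one ((n : ℝ) * f i (Qinv (g i)))
    have a3 := Int.floor_le ((n : ℝ) * f i (Qinv (g o)))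
    have a4 := Int.lt_floor_add_one ((n : ℝ) * f i (Qinv (g o)))
    rw [abs_lt]; constructor <;> linarith
  have hs : |∑ i : A, ((n : ℝ) * (f i (Qinv (g i)) - f i (Qinv (g o))) - 2 * n * z i)| < n := by
    refine lt_of_le_of_lt (Finset.abs_sum_le_sum_abs _ _) ?_
    have := Finset.sum_lt_sum_of_nonempty (s := Finset.univ) Finset.univ_nonempty
      (fun i _ => hlt i)
    rwa [Finset.sum_const, Finset.card_univ, ← hn, nsmul_eq_mul, mul_one] at this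
  rw [Finset.sum_sub_distrib, ← Finset.mul_sum, hsum, ← Finset.mul_sum] at hs
  have hn' : (0 : ℝ) < n := by exact_mod_cast hn0
  have h2 : |(1 : ℝ) - 2 * ∑ i, (z i : ℝ)| < 1 := by
    rw [show (n : ℝ) * 1 - 2 * n * ∑ i, (z i : ℝ) = n * (1 - 2 * ∑ i, (z i : ℝ)) by ring,
      abs_mul, abs_of_pos hn'] at hs
    nlinarith
  have h3 : |(1 : ℤ) - 2 * ∑ i, z i| < 1 := by exact_mod_cast h2
  rw [abs_lt] at h3
  omega

end Vale.Agent.P058
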