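import Vale.Agent.P058.Pat

/-!
Ore pairs: elements of the form (positive word) times (positive word) inverse.
-/

namespace Vale.Agent.P058

open Matrix

variable {ι : Type} [Fintype ι] {D : Type} {G : Type} [Group G]

/-- The element `s` in row `i` is a quotient of two positive words of the same weight, of trace
at most `t`, which agree on the rows in `S`. -/
def Ore (a : D → ι → ℝ) (θ : ℝ → G) (S : Set D) (i : D) (s : G) (t : ℝ) : Prop :=
  ∃ (M : Matrix ι ι ℝ) (B B' : D → G), Pat a θ M B ∧ Pat a θ M B' ∧ (∀ j ∈ S, B j = B' j) ∧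
    B i * (B' i)⁻¹ = s ∧ M.trace ≤ t

variable {a : D → ι → ℝ} {θ : ℝ → G} {S : Set D} {i : D}

lemma Ore.one : Ore a θ S i 1 0 :=
  ⟨0, fun _ => 1, fun _ => 1, Pat.one, Pat.one, fun _ _ => rfl, by simp, by simp⟩

lemma Ore.nonneg {s : G} {t : ℝ} (h : Ore a θ S i s t) : 0 ≤ t := by
  obtain ⟨M, B, B', h1, _, _, _, h5⟩ := h
  exact h1.trace_nonneg.trans h5

lemma Ore.mono {s : G} {t t' : ℝ} (h : Ore a θ S i s t) (ht : t ≤ t') : Ore a θ S i s t' := by
  obtain ⟨M, B, B', h1, h2, h3, h4, h5⟩ := h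
  exact ⟨M, B, B', h1, h2, h3, h4, h5.trans ht⟩

lemma Ore.inv {s : G} {t : ℝ} (h : Ore a θ S i s t) : Ore a θ S i s⁻¹ t := by
  obtain ⟨M, B, B', h1, h2, h3, h4, h5⟩ := h
  exact ⟨M, B', B, h2, h1, fun j hj => (h3 j hj).symm, by rw [← h4]; group, h5⟩

lemma Ore.conj {s : G} {t : ℝ} (h : Ore a θ S i s t) (c : G) : Ore a θ S i (c * s * c⁻¹) t := by
  obtain ⟨M, B, B', h1, h2, h3, h4, h5⟩ := h
  exact ⟨M, _, _, h1.const_mul c, h2.const_mul c, fun j hj => by rw [h3 j hj],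
    by rw [← h4]; group, h5⟩

lemma Ore.mul {s s' : G} {t t' : ℝ} (h : Ore a θ S i s t) (h' : Ore a θ S i s' t') :
    Ore a θ S i (s * s') (t + t') := by
  obtain ⟨M, B, B', h1, h2, h3, h4, h5⟩ := h
  obtain ⟨N, C, C', g1, g2, g3, g4, g5⟩ := h'
  refine ⟨M + N, _, _, (h1.mul_const (B' i)⁻¹).mul g1, (h2.mul_const (B' i)⁻¹).mul g2,
    fun j hj => by rw [h3 j hj, g3 j hj], ?_, by rw [trace_add]; exact add_le_add h5 g5⟩
  rw [← h4, ← g4]; group

lemma Ore.congr {s s' : G} {t : ℝ} (h : Ore a θ S i s t) (hs : s = s') : Ore a θ S i s' t :=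
  hs ▸ h

/-- Bi-invariance: quotients of products. -/
lemma Ore.div_mul {x y x' y' : G} {t t' : ℝ} (h : Ore a θ S i (x * y⁻¹) t)
    (h' : Ore a θ S i (x' * y'⁻¹) t') : Ore a θ S i ((x * x') * (y * y')⁻¹) (t + t') :=
  (h.mul (h'.conj y)).congr (by group)

lemma Ore.div_list {κ : Type} (l : List κ) (x y : κ → G) {t : ℝ}
    (h : ∀ k ∈ l, Ore a θ S i (x k * (y k)⁻¹) t) :
    Ore a θ S i ((l.map x).prod * ((l.map y).prod)⁻¹) (l.length * t) := by
  induction l with
  | nil => simpa using Ore.one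
  | cons k l ih =>
    have h1 := h k (by simp)
    have h2 := ih (fun k hk => h k (by simp [hk]))
    refine ((h1.div_mul h2).congr (by simp)).mono (le_of_eq ?_)
    simp; ring

lemma exists_col {x y : ι → ℝ} (hxy : x ≠ y) (r : ℝ) :
    ∃ u : Col ι, ev x u = r ∧ ev y u = 0 := by
  have hne : x - y ≠ 0 := sub_ne_zero.mpr hxy
  have hpos : (x - y) ⬝ᵥ (x - y) ≠ 0 := fun h => hne (dotProduct_self_eq_zero.mp h)
  refine ⟨((r / ((x - y) ⬝ᵥ (x - y))) • (x - y),
    -(((r / ((x - y) ⬝ᵥ (x - y))) • (x - y)) ⬝ᵥ y)), ?_, ?_⟩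
  · rw [ev_apply, ← sub_eq_add_neg, ← dotProduct_sub, smul_dotProduct, smul_eq_mul]
    field_simp
  · rw [ev_apply]; simp

lemma exists_sep (h0 : θ 0 = 1) (htop : Subgroup.closure (Set.range θ) = ⊤) {i j : D}
    (hij : a i ≠ a j) (g : G) :
    ∃ (M : Matrix ι ι ℝ) (E : D → G), Pat a θ M E ∧ E i = g ∧ E j = 1 := by
  have hg : g ∈ Subgroup.closure (Set.range θ) := by rw [htop]; trivial
  induction hg using Subgroup.closure_induction'' with
  | one => exact ⟨0, fun _ => 1, Pat.one, rfl, rfl⟩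
  | mem x hx =>
    obtain ⟨r, rfl⟩ := hx
    obtain ⟨u, h1, h2⟩ := exists_col hij r
    exact ⟨_, _, Pat.col u, by simp only [h1], by simp only [h2, h0]⟩
  | inv_mem x hx =>
    obtain ⟨r, rfl⟩ := hx
    obtain ⟨u, h1, h2⟩ := exists_col hij.symm r
    exact ⟨_, _, (Pat.col u).mul_const (θ r)⁻¹, by simp [h2, h0], by simp [h1]⟩
  | mul x y _ _ hx hy =>
    obtain ⟨M, E, h1, h2, h3⟩ := hx
    obtain ⟨N, F, g1, g2, g3⟩ := hy
    exact ⟨_, _, h1.mul g1, by simp [h2, g2], by simp [h3, g3]⟩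

lemma Ore.comm (h0 : θ 0 = 1) (htop : Subgroup.closure (Set.range θ) = ⊤) {j : D}
    (hij : a i ≠ a j) {s : G} {t : ℝ} (h : Ore a θ S i s t) (v : G) :
    ∃ t', Ore a θ (insert j S) i (s * v * s⁻¹ * v⁻¹) t' := by
  obtain ⟨M, B, B', h1, h2, h3, h4, h5⟩ := h
  obtain ⟨N, E, e1, e2, e3⟩ := exists_sep h0 htop hij ((B' i)⁻¹ * v * B' j)
  have k1 := h1.mul e1
  have k2 := h2.mul e1
  refine ⟨_, (M + N) + (M + N), _, _, (k1.mul_const (B' j)⁻¹).mul k2,
    (k2.mul_const (B' j)⁻¹).mul k1, ?_, ?_, le_rfl⟩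
  · intro k hk
    rcases hk with rfl | hk
    · simp [e3]
    · simp [h3 k hk]
  · simp only [e2, ← h4]; group

/-- The elements having an Ore representation form a subgroup. -/
def oreSub (a : D → ι → ℝ) (θ : ℝ → G) (S : Set D) (i : D) : Subgroup G where
  carrier := {s | ∃ t, Ore a θ S i s t}
  mul_mem' := fun ⟨_, h⟩ ⟨_, h'⟩ => ⟨_, h.mul h'⟩
  one_mem' := ⟨_, Ore.one⟩
  inv_mem' := fun ⟨_, h⟩ => ⟨_, h.inv⟩

lemma lcs_le_oreSub [DecidableEq D] (h0 : θ 0 = 1) (htop : Subgroup.closure (Set.range θ) = ⊤)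
    (S : Finset D) (hS : ∀ j ∈ S, a i ≠ a j) :
    (⊤ : Subgroup G).lowerCentralSeries S.card ≤ oreSub a θ (S : Set D) i := by
  induction S using Finset.induction_on with
  | empty =>
    intro s _
    exact ⟨0, 0, fun _ => s, fun _ => 1, Pat.const s, Pat.one, by simp, by simp, by simp⟩
  | insert j S hj ih =>
    rw [Finset.card_insert_of_notMem hj, Subgroup.lowerCentralSeries_succ,
      Subgroup.commutator_le]
    intro s hs v _
    obtain ⟨t, ht⟩ := ih (fun k hk => hS k (by simp [hk])) hs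
    have := ht.comm h0 htop (hS j (by simp)) v
    rw [Finset.coe_insert]
    exact this

/-- Gathering the single-row Ore representations. -/
lemma gather [DecidableEq D] (s : D → G) (t : ℝ) (T : Finset D)
    (h : ∀ i ∈ T, Ore a θ {j | j ≠ i} i (s i) t) :
    ∃ (M : Matrix ι ι ℝ) (B B' : D → G), Pat a θ M B ∧ Pat a θ M B' ∧
      (∀ j, B j * (B' j)⁻¹ = if j ∈ T then s j else 1) ∧ M.trace ≤ T.card * t := by
  induction T using Finset.induction_on with
  | empty => exact ⟨0, fun _ => 1, fun _ => 1, Pat.one, Pat.one, by simp, by simp⟩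
  | insert i T hi ih =>
    obtain ⟨M, B, B', h1, h2, h3, h4⟩ := ih (fun k hk => h k (by simp [hk]))
    obtain ⟨N, C, C', g1, g2, g3, g4, g5⟩ := h i (by simp)
    refine ⟨M + N, _, _, (h1.mul_const (B' i)⁻¹).mul g1, (h2.mul_const (B' i)⁻¹).mul g2, ?_, ?_⟩
    · intro j
      by_cases hji : j = i
      · subst hji
        have := h3 j
        simp only [hi, if_false] at this
        simp only [Finset.mem_insert, true_or, if_true, this, ← g4]
        group
      · have := h3 j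
        simp only [Finset.mem_insert, hji, false_or, ← this, g3 j hji]
        group
    · rw [trace_add, Finset.card_insert_of_notMem hi]
      push_cast
      linarith

end Vale.Agent.P058
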