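import Mathlib

/-!
Patterns in an abstract group: positive words in affine columns and constants.
-/

namespace Vale.Agent.P058

open Matrix

/-- An affine functional: linear part and constant. -/
abbrev Col (ι : Type) := (ι → ℝ) × ℝ

variable {ι : Type} [Fintype ι] [DecidableEq ι]

/-- Evaluation of an affine functional at a point. -/
def ev (x : ι → ℝ) : Col ι →ₗ[ℝ] ℝ where
  toFun u := u.1 ⬝ᵥ x + u.2
  map_add' u v := by simp [add_dotProduct]; ring
  map_smul' c u := by simp [smul_dotProduct]; ring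

omit [DecidableEq ι] in
lemma ev_apply (x : ι → ℝ) (u : Col ι) : ev x u = u.1 ⬝ᵥ x + u.2 := rfl

/-- Gram matrix of the linear part. -/
def gram (u : Col ι) : Matrix ι ι ℝ := vecMulVec u.1 u.1

omit [DecidableEq ι] in
lemma trace_gram (u : Col ι) : (gram u).trace = u.1 ⬝ᵥ u.1 := by
  simp [gram, trace, vecMulVec, dotProduct]

omit [Fintype ι] [DecidableEq ι] in
lemma gram_smul (s : ℝ) (u : Col ι) : gram (s • u) = (s ^ 2) • gram u := by
  ext i j; simp [gram, vecMulVec]; ring

omit [Fintype ι] [DecidableEq ι] in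
lemma gram_const (c : ℝ) : gram ((0, c) : Col ι) = 0 := by
  ext i j; simp [gram, vecMulVec]

variable {D : Type} {G : Type} [Group G]

/-- Positive words. -/
inductive Pat (a : D → ι → ℝ) (θ : ℝ → G) : Matrix ι ι ℝ → (D → G) → Prop
  | const (c : G) : Pat a θ 0 (fun _ => c)
  | col (u : Col ι) : Pat a θ (gram u) (fun i => θ (ev (a i) u))
  | mul {M N : Matrix ι ι ℝ} {y z : D → G} :
      Pat a θ M y → Pat a θ N z → Pat a θ (M + N) (fun i => y i * z i)

variable {a : D → ι → ℝ} {θ : ℝ → G}

omit [DecidableEq ι] in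
lemma Pat.congr {M N : Matrix ι ι ℝ} {y z : D → G} (h : Pat a θ M y) (hM : M = N)
    (hy : ∀ i, y i = z i) : Pat a θ N z := by
  have : y = z := funext hy
  subst hM; subst this; exact h

omit [DecidableEq ι] in
lemma Pat.one : Pat a θ 0 (fun _ => (1 : G)) := Pat.const 1

omit [DecidableEq ι] in
lemma Pat.const_mul {M : Matrix ι ι ℝ} {y : D → G} (h : Pat a θ M y) (c : G) :
    Pat a θ M (fun i => c * y i) :=
  ((Pat.const c).mul h).congr (zero_add _) (fun _ => rfl)

omit [DecidableEq ι] in
lemma Pat.mul_const {M : Matrix ι ι ℝ} {y : D → G} (h : Pat a θ M y) (c : G) :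
    Pat a θ M (fun i => y i * c) :=
  (h.mul (Pat.const c)).congr (add_zero _) (fun _ => rfl)

omit [DecidableEq ι] in
lemma Pat.trace_nonneg {M : Matrix ι ι ℝ} {y : D → G} (h : Pat a θ M y) : 0 ≤ M.trace := by
  induction h with
  | const c => simp
  | col u => rw [trace_gram]; exact Finset.sum_nonneg (fun i _ => mul_self_nonneg _)
  | mul _ _ h1 h2 => rw [trace_add]; exact add_nonneg h1 h2

omit [DecidableEq ι] in
/-- A list product of patterns is a pattern. -/
lemma Pat.list_prod {κ : Type} (l : List κ) (M : κ → Matrix ι ι ℝ) (y : κ → D → G)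
    (h : ∀ k ∈ l, Pat a θ (M k) (y k)) :
    Pat a θ (l.map M).sum (fun i => (l.map (fun k => y k i)).prod) := by
  induction l with
  | nil => simpa using Pat.one
  | cons k l ih =>
    have h1 := h k (by simp)
    have h2 := ih (fun k hk => h k (by simp [hk]))
    exact (h1.mul h2).congr (by simp) (fun i => by simp)

omit [DecidableEq ι] in
lemma Pat.finset_sum {κ : Type} (s : Finset κ) (M : κ → Matrix ι ι ℝ)
    (h : ∀ k ∈ s, ∃ y, Pat a θ (M k) y) : ∃ y, Pat a θ (∑ k ∈ s, M k) y := by
  classical
  induction s using Finset.induction_on with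
  | empty => exact ⟨_, by simpa using Pat.one⟩
  | insert k s hk ih =>
    obtain ⟨y, hy⟩ := h k (by simp)
    obtain ⟨z, hz⟩ := ih (fun k hk => h k (by simp [hk]))
    exact ⟨_, (hy.mul hz).congr (by rw [Finset.sum_insert hk]) (fun _ => rfl)⟩

/-- Nonnegative multiples of the identity are weights. -/
lemma Pat.exists_smul_one (β : ℝ) (hβ : 0 ≤ β) : ∃ y, Pat a θ (β • (1 : Matrix ι ι ℝ)) y := by
  have h := Pat.finset_sum (a := a) (θ := θ) Finset.univ
    (fun k : ι => gram ((Real.sqrt β • Pi.single k 1, 0) : Col ι))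
    (fun k _ => ⟨_, Pat.col _⟩)
  obtain ⟨y, hy⟩ := h
  refine ⟨y, hy.congr ?_ (fun _ => rfl)⟩
  ext i j
  simp only [gram, vecMulVec, Matrix.sum_apply, of_apply, Pi.smul_apply, smul_eq_mul,
    Matrix.smul_apply, one_apply, Pi.single_apply]
  by_cases hij : i = j
  · subst hij
    simp [Real.mul_self_sqrt hβ]
  · simp only [hij, if_false, mul_zero]
    refine Finset.sum_eq_zero (fun k _ => ?_)
    by_cases h1 : i = k
    · have : j ≠ k := fun h => hij (h1.trans h.symm)
      simp [this]
    · simp [h1]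

lemma lagrange (u : ι → ℝ) :
    ∑ k : ι × ι, gram ((u k.1 • Pi.single k.2 1 - u k.2 • Pi.single k.1 1, 0) : Col ι)
      = (2 : ℝ) • ((u ⬝ᵥ u) • (1 : Matrix ι ι ℝ) - vecMulVec u u) := by
  ext i j
  simp only [gram, vecMulVec, Matrix.sum_apply, of_apply, Pi.smul_apply,
    smul_eq_mul, Matrix.smul_apply, one_apply, Pi.sub_apply, Pi.single_apply,
    Matrix.sub_apply, Fintype.sum_prod_type]
  have key : ∀ k l : ι,
      ((u k * if i = l then 1 else 0) - u l * if i = k then 1 else 0) *
      ((u k * if j = l then 1 else 0) - u l * if j = k then 1 else 0)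
      = (if i = l then (if j = l then u k * u k else 0) else 0)
        + (if i = k then (if j = k then u l * u l else 0) else 0)
        - (if i = l then (if j = k then u k * u l else 0) else 0)
        - (if i = k then (if j = l then u k * u l else 0) else 0) := by
    intro k l
    split_ifs <;> ring
  simp only [key, Finset.sum_sub_distrib, Finset.sum_add_distrib,
    Finset.sum_ite_eq, Finset.mem_univ, if_true, Finset.sum_ite_irrel, Finset.sum_const_zero]
  by_cases hij : i = j
  · subst hij
    simp [dotProduct]; ring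
  · have hji : ¬ j = i := fun h => hij h.symm
    simp [hij, hji]; ring

/-- Complementary weights (Lagrange identity). -/
lemma Pat.exists_compl {M : Matrix ι ι ℝ} {y : D → G} (h : Pat a θ M y) :
    ∃ z, Pat a θ (M.trace • (1 : Matrix ι ι ℝ) - M) z := by
  induction h with
  | const c => exact ⟨_, by simpa using Pat.one⟩
  | col u =>
    have h := Pat.finset_sum (a := a) (θ := θ) Finset.univ
      (fun k : ι × ι => gram (Real.sqrt (1 / 2) •
        ((u.1 k.1 • Pi.single k.2 1 - u.1 k.2 • Pi.single k.1 1, 0) : Col ι)))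
      (fun k _ => ⟨_, Pat.col _⟩)
    obtain ⟨y, hy⟩ := h
    refine ⟨y, hy.congr ?_ (fun _ => rfl)⟩
    simp only [gram_smul]
    rw [← Finset.smul_sum, lagrange, Real.sq_sqrt (by norm_num), smul_smul, trace_gram]
    simp [gram]
  | mul _ _ h1 h2 =>
    obtain ⟨z1, h1⟩ := h1
    obtain ⟨z2, h2⟩ := h2
    refine ⟨_, (h1.mul h2).congr ?_ (fun _ => rfl)⟩
    rw [trace_add, add_smul]; abel

end Vale.Agent.P058
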