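import Vale.Agent.P058.Abelian

/-!
From approximate balance of high order to exact balance.
-/

namespace Vale.Agent.P058

open Matrix

set_option linter.unusedSectionVars false

variable {ι : Type} [Fintype ι] [DecidableEq ι] {D : Type} {a : D → ι → ℝ}

lemma lift_aug {x y : ι → ℝ} (hxy : x ≠ y) {b : GR ℝ} (hb : b ∈ aug ℝ) :
    ∃ ζ : GR (Col ι), evR x ζ = b ∧ evR y ζ = 0 := by
  induction hb using Submodule.span_induction with
  | mem b hb =>
    obtain ⟨r, rfl⟩ := hb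
    obtain ⟨u, h1, h2⟩ := exists_col hxy r
    exact ⟨br u - 1, by simp [evR_br, h1], by simp [evR_br, h2, br_zero]⟩
  | zero => exact ⟨0, by simp, by simp⟩
  | add b c _ _ hb hc =>
    obtain ⟨ζ, h1, h2⟩ := hb
    obtain ⟨η, g1, g2⟩ := hc
    exact ⟨ζ + η, by simp [h1, g1], by simp [h2, g2]⟩
  | smul r b _ hb =>
    obtain ⟨ζ, h1, h2⟩ := hb
    exact ⟨push (cst ι) r * ζ, by simp [h1, evR_cst], by simp [h2]⟩

lemma lift_pow [DecidableEq D] (i : D) (S : Finset D) (hS : ∀ j ∈ S, a i ≠ a j) :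
    ∀ ξ ∈ aug ℝ ^ S.card, ∃ ζ : GR (Col ι), evR (a i) ζ = ξ ∧ ∀ j ∈ S, evR (a j) ζ = 0 := by
  induction S using Finset.induction_on with
  | empty => intro ξ _; exact ⟨push (cst ι) ξ, evR_cst _ _, by simp⟩
  | insert j S hj ih =>
    intro ξ hξ
    rw [Finset.card_insert_of_notMem hj, pow_succ] at hξ
    refine Submodule.mul_induction_on hξ ?_ ?_
    · intro m hm b hb
      obtain ⟨ζ, h1, h2⟩ := ih (fun k hk => hS k (by simp [hk])) m hm
      obtain ⟨η, g1, g2⟩ := lift_aug (hS j (by simp)) hb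
      refine ⟨ζ * η, by rw [map_mul, h1, g1], fun k hk => ?_⟩
      rcases Finset.mem_insert.mp hk with rfl | hk
      · rw [map_mul, g2, mul_zero]
      · rw [map_mul, h2 k hk, zero_mul]
    · rintro x y ⟨ζ, h1, h2⟩ ⟨η, g1, g2⟩
      exact ⟨ζ + η, by rw [map_add, h1, g1], fun k hk => by rw [map_add, h2 k hk, g2 k hk, add_zero]⟩

/-- Elements whose cost becomes negligible after averaging over constant translations. -/
def Negl (σ : GR (Col ι)) : Prop :=
  Gam σ = 0 ∧ ∀ ε : ℝ, 0 < ε → ∃ Φ : Multiset ℝ, 0 < Φ.card ∧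
    Rep (push (cst ι) (ms Φ) * σ) (Φ.card * ε)

lemma Negl.zero : Negl (0 : GR (Col ι)) :=
  ⟨by simp, fun ε hε => ⟨{0}, by simp, by simpa using Rep.zero.mono hε.le⟩⟩

lemma Negl.add {σ τ : GR (Col ι)} (h : Negl σ) (h' : Negl τ) : Negl (σ + τ) := by
  refine ⟨by rw [map_add, h.1, h'.1, add_zero], fun ε hε => ?_⟩
  obtain ⟨Φ, h1, h2⟩ := h.2 (ε / 2) (by positivity)
  obtain ⟨Ψ, g1, g2⟩ := h'.2 (ε / 2) (by positivity)
  obtain ⟨V, v1, v2⟩ := exists_ms_mul Φ Ψ
  refine ⟨V, by rw [v2]; exact Nat.mul_pos h1 g1, ?_⟩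
  have := (h2.ms_cst_mul Ψ).add (g2.ms_cst_mul Φ)
  rw [v1, v2, map_mul]
  convert this using 1
  · ring
  · push_cast; ring

lemma Negl.gen (ζ : GR (Col ι)) (x : ℝ) : Negl ((br (cst ι x) - 1) * ζ) := by
  refine ⟨by rw [sub_mul, map_sub, Gam_br_cst_mul, one_mul, sub_self], fun ε hε => ?_⟩
  obtain ⟨t, ht⟩ := exists_rep ζ
  obtain ⟨t', ht'⟩ := exists_rep (-ζ)
  obtain ⟨m, hm⟩ := exists_nat_gt ((t + t') / ε)
  have hm0 : (0 : ℝ) < m := lt_of_le_of_lt (div_nonneg (add_nonneg ht.nonneg ht'.nonneg) hε.le) hm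
  refine ⟨(Multiset.range m).map (fun j => j • x), by simpa using hm0, ?_⟩
  have e : push (cst ι) (ms ((Multiset.range m).map (fun j => j • x))) * ((br (cst ι x) - 1) * ζ)
      = br (cst ι (m • x)) * ζ + -ζ := by
    have := congrArg (push (cst ι)) (geom_ms x m)
    rw [map_mul, map_sub, map_sub, push_br, push_br, map_one] at this
    rw [← mul_assoc, mul_comm _ (br (cst ι x) - 1), this]
    ring
  rw [e]
  refine ((ht.br_cst_mul _).add ht').mono ?_
  rw [Multiset.card_map, Multiset.card_range]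
  rw [div_lt_iff₀ hε] at hm
  exact hm.le

lemma lift_negl [DecidableEq D] (i : D) (S : Finset D) (hS : ∀ j ∈ S, a i ≠ a j) :
    ∀ ξ ∈ aug ℝ ^ (S.card + 1), ∃ σ : GR (Col ι), Negl σ ∧ evR (a i) σ = ξ ∧
      ∀ j ∈ S, evR (a j) σ = 0 := by
  have hadd : ∀ x y : GR ℝ, (∃ σ : GR (Col ι), Negl σ ∧ evR (a i) σ = x ∧
      ∀ j ∈ S, evR (a j) σ = 0) → (∃ σ : GR (Col ι), Negl σ ∧ evR (a i) σ = y ∧
      ∀ j ∈ S, evR (a j) σ = 0) → (∃ σ : GR (Col ι), Negl σ ∧ evR (a i) σ = x + y ∧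
      ∀ j ∈ S, evR (a j) σ = 0) := by
    rintro x y ⟨ζ, h0, h1, h2⟩ ⟨η, g0, g1, g2⟩
    exact ⟨ζ + η, h0.add g0, by rw [map_add, h1, g1],
      fun k hk => by rw [map_add, h2 k hk, g2 k hk, add_zero]⟩
  have key : ∀ b ∈ aug ℝ, ∀ m ∈ aug ℝ ^ S.card, ∃ σ : GR (Col ι), Negl σ ∧
      evR (a i) σ = m * b ∧ ∀ j ∈ S, evR (a j) σ = 0 := by
    intro b hb
    induction hb using Submodule.span_induction with
    | mem b hb =>
      obtain ⟨r, rfl⟩ := hb
      intro m hm
      obtain ⟨ζ, h1, h2⟩ := lift_pow i S hS m hm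
      refine ⟨_, Negl.gen ζ r, ?_, fun j hj => by rw [map_mul, h2 j hj, mul_zero]⟩
      rw [map_mul, h1, map_sub, map_one, ← push_br, evR_cst, mul_comm]
    | zero => intro m _; exact ⟨0, Negl.zero, by simp, by simp⟩
    | add b c _ _ hb hc => intro m hm; rw [mul_add]; exact hadd _ _ (hb m hm) (hc m hm)
    | smul r b _ hb =>
      intro m hm
      rw [smul_eq_mul, ← mul_assoc]
      exact hb _ (Ideal.mul_mem_right _ _ hm)
  intro ξ hξ
  rw [pow_succ] at hξ
  exact Submodule.mul_induction_on hξ (fun m hm b hb => key b hb m hm) hadd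

lemma exists_perm_of_multiset {N : ℕ} (f g : Fin N → ℝ)
    (h : (Finset.univ : Finset (Fin N)).val.map f = (Finset.univ : Finset (Fin N)).val.map g) :
    ∃ σ : Equiv.Perm (Fin N), ∀ k, f k = g (σ k) := by
  classical
  have hc : ∀ c : ℝ, Fintype.card {k // f k = c} = Fintype.card {k // g k = c} := by
    intro c
    have := congrArg (Multiset.count c) h
    rw [Multiset.count_map, Multiset.count_map] at this
    rw [Fintype.card_subtype, Fintype.card_subtype]
    simp only [Finset.card, Finset.filter_val]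
    simp only [eq_comm (b := c)]
    exact this
  refine ⟨Equiv.ofFiberEquiv (fun c => Fintype.equivOfCardEq (hc c)), fun k => ?_⟩
  exact (Equiv.ofFiberEquiv_map _ k).symm

lemma exists_fun_of_multiset {β : Type} (W : Multiset β) {N : ℕ} (h : W.card = N) :
    ∃ f : Fin N → β, (Finset.univ : Finset (Fin N)).val.map f = W := by
  subst h
  induction W using Quotient.inductionOn with
  | h l =>
    refine ⟨l.get, ?_⟩
    have := Fin.univ_val_map l.get
    rw [List.ofFn_get] at this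
    exact this

theorem QQ.toAB [Fintype D] [DecidableEq D] [Nonempty D] (ha : Function.Injective a)
    (h : QQ a 3) : AB a := by
  intro M hM
  obtain ⟨ρ, μ, hμ, h1, h2, h3⟩ := h.all (Fintype.card D) (1 / (3 * M)) (by positivity)
  have hσ : ∀ i, ∃ σ : GR (Col ι), Negl σ ∧ evR (a i) σ = -evR (a i) ρ ∧
      ∀ j ∈ Finset.univ.erase i, evR (a j) σ = 0 := by
    intro i
    refine lift_negl i _ (fun j hj h => (Finset.ne_of_mem_erase hj) (ha h).symm) _ ?_
    refine neg_mem (Ideal.pow_le_pow_right ?_ (h3 i))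
    have := Finset.card_le_univ (Finset.univ.erase i)
    omega
  choose σ s1 s2 s3 using hσ
  have hN : Negl (∑ i, σ i) :=
    Finset.sum_induction _ Negl (fun _ _ => Negl.add) Negl.zero (fun i _ => s1 i)
  obtain ⟨Φ, hΦ, hR⟩ := hN.2 (μ / (3 * M)) (by positivity)
  have hΦ' : (0 : ℝ) < Φ.card := by exact_mod_cast hΦ
  have hR2 := (h2.ms_cst_mul Φ).add hR
  rw [← mul_add] at hR2
  have hG : Gam (push (cst ι) (ms Φ) * (ρ + ∑ i, σ i)) = (Φ.card * μ) • (1 : Matrix ι ι ℝ) := by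
    rw [Gam_ms_cst_mul, map_add, hN.1, add_zero, h1, smul_smul]
  have hE : ∀ j, evR (a j) (push (cst ι) (ms Φ) * (ρ + ∑ i, σ i)) = 0 := by
    intro j
    rw [map_mul, map_add, map_sum, ← Finset.add_sum_erase _ _ (Finset.mem_univ j), s2,
      Finset.sum_eq_zero (fun i hi => s3 i j (by
        simpa using (Finset.ne_of_mem_erase hi).symm))]
    simp
  obtain ⟨Wp, Wm, w1, w2⟩ := hR2
  rw [w1] at hG hE
  have hE2 : ∀ j, Wp.map (ev (a j)) = Wm.map (ev (a j)) := by
    intro j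
    have := hE j
    rw [map_sub, sub_eq_zero, evR, push_ms, push_ms] at this
    exact ms_injective this
  have hcard : Wp.card = Wm.card := by
    have := congrArg Multiset.card (hE2 (Classical.arbitrary D))
    simpa using this
  obtain ⟨fp, hfp⟩ := exists_fun_of_multiset Wp hcard
  obtain ⟨fm, hfm⟩ := exists_fun_of_multiset Wm rfl
  have hg : ∀ j, ∃ g : Equiv.Perm (Fin Wm.card), ∀ k, ev (a j) (fp k) = ev (a j) (fm (g k)) := by
    intro j
    apply exists_perm_of_multiset (fun k => ev (a j) (fp k)) (fun k => ev (a j) (fm k))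
    have := hE2 j
    rw [← hfp] at this
    conv_rhs at this => rw [← hfm]
    simpa only [Multiset.map_map, Function.comp_def] using this
  choose g hg using hg
  have sp : ∑ k, gram (fp k) = Gam (ms Wp) := by
    rw [Gam, lin_ms, ← hfp, Multiset.map_map]; rfl
  have sm : ∑ k, gram (fm k) = Gam (ms Wm) := by
    rw [Gam, lin_ms]
    conv_rhs => rw [← hfm]
    rw [Multiset.map_map]; rfl
  refine ⟨_, fp, fm, g, Φ.card * μ, mul_pos hΦ' hμ, hg, ?_, ?_⟩
  · rw [sp, sm, ← hG, map_sub]; abel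
  · rw [sm, trace_Gam_ms]
    refine lt_of_le_of_lt w2 ?_
    have : (0 : ℝ) < Φ.card * μ / M := by positivity
    have e : (Φ.card : ℝ) * (1 / (3 * M) * μ) + Φ.card * (μ / (3 * M))
        = 2 / 3 * (Φ.card * μ / M) := by field_simp; ring
    rw [e]; linarith

end Vale.Agent.P058
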