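import Vale.Agent.P058.Bridge

/-!
Subtransitive sets and small spherical sets are Ramsey.
-/

namespace Vale.Agent.P058

open Matrix TensorProduct

lemma IsRamsey.of_embed {d n : ℕ} {A : Finset (EuclideanSpace ℝ (Fin d))}
    {X : Finset (EuclideanSpace ℝ (Fin n))} (hX : IsRamsey X) (f : A → EuclideanSpace ℝ (Fin n))
    (hf : ∀ x y : A, dist (f x) (f y) = dist (x : EuclideanSpace ℝ (Fin d)) y)
    (hm : ∀ x, f x ∈ X) : IsRamsey A := by
  intro r hr
  obtain ⟨D, hD, h⟩ := hX r hr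
  refine ⟨D, hD, fun c => ?_⟩
  obtain ⟨g, hg, k, hk⟩ := h c
  exact ⟨fun x => g ⟨f x, hm x⟩, fun x y => by rw [hg, hf], k, fun x => hk _⟩

/-- Distance preserving permutations of a finite set. -/
def isoPerm {n : ℕ} (X : Finset (EuclideanSpace ℝ (Fin n))) : Subgroup (Equiv.Perm X) where
  carrier := {σ | ∀ x y : X, dist (σ x : EuclideanSpace ℝ (Fin n)) (σ y) =
    dist (x : EuclideanSpace ℝ (Fin n)) y}
  mul_mem' := fun {σ τ} hσ hτ x y => by
    rw [Equiv.Perm.mul_apply, Equiv.Perm.mul_apply, hσ, hτ]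
  one_mem' := fun _ _ => rfl
  inv_mem' := fun {σ} hσ x y => by
    rw [← hσ]; simp

lemma IsTransitiveSet.exists_isoPerm {n : ℕ} {X : Finset (EuclideanSpace ℝ (Fin n))}
    (hX : IsTransitiveSet X) (x y : X) : ∃ σ : isoPerm X, σ.1 x = y := by
  obtain ⟨φ, h1, h2⟩ := hX x x.2 y y.2
  have hiff : ∀ z, φ.toEquiv z ∈ X ↔ z ∈ X := by
    intro z
    constructor
    · intro hz
      have : φ z ∈ φ '' (X : Set (EuclideanSpace ℝ (Fin n))) := by rw [h1]; exact hz
      obtain ⟨w, hw, e⟩ := this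
      rwa [← φ.injective e]
    · intro hz
      have : φ z ∈ φ '' (X : Set (EuclideanSpace ℝ (Fin n))) := ⟨z, hz, rfl⟩
      rwa [h1] at this
  exact ⟨⟨Equiv.Perm.subtypePerm φ.toEquiv hiff, fun a b => φ.dist_eq a b⟩, Subtype.ext h2⟩

theorem IsTransitiveSet.ramsey {n : ℕ} {X : Finset (EuclideanSpace ℝ (Fin n))}
    (hX : IsTransitiveSet X) (hne : X.Nonempty) : IsRamsey X := by
  classical
  apply ramsey_of_TC X hne
  have : Nonempty X := hne.to_subtype
  obtain ⟨o⟩ := ‹Nonempty X›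
  have : Nonempty X := ⟨o⟩
  choose b hb1 hb2 using fun σ : isoPerm X => exists_tensor_of_copy
    (fun x : X => (x : EuclideanSpace ℝ (Fin n))) (fun x => (σ.1 x : EuclideanSpace ℝ (Fin n))) σ.2
  have hc : (Fintype.card (isoPerm X) : ℚ) ≠ 0 := by exact_mod_cast Fintype.card_ne_zero
  refine TC.of_const (((Fintype.card (isoPerm X) : ℚ)⁻¹) • ∑ σ, b σ)
    (((Fintype.card (isoPerm X) : ℚ)⁻¹) •
      ∑ σ : isoPerm X, Qinv (σ.1 o : EuclideanSpace ℝ (Fin n))) ?_ (fun x => ?_)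
  · rw [map_smul, map_sum]
    simp only [hb1, Finset.sum_const, Finset.card_univ]
    rw [← Nat.cast_smul_eq_nsmul ℚ, smul_smul, inv_mul_cancel₀ hc, one_smul]
  · rw [map_smul, map_sum]
    simp only [hb2]
    obtain ⟨τ, rfl⟩ := hX.exists_isoPerm o x
    congr 1
    exact Equiv.sum_comp (Equiv.mulRight τ)
      (fun σ : isoPerm X => Qinv (σ.1 o : EuclideanSpace ℝ (Fin n)))

theorem IsSubtransitive.ramsey {d : ℕ} {A : Finset (EuclideanSpace ℝ (Fin d))}
    (hA : IsSubtransitive A) (hne : A.Nonempty) : IsRamsey A := by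
  obtain ⟨n, X, hX, f, h1, h2⟩ := hA
  obtain ⟨x, hx⟩ := hne
  exact (hX.ramsey ⟨f ⟨x, hx⟩, h2 _⟩).of_embed f h1 h2

variable {ι : Type} [Fintype ι] [DecidableEq ι] {D : Type}

lemma TC_of_cover [Fintype D] {a : D → ι → ℝ} (z : ι → ℝ) (ρ : ℝ)
    (hs : ∀ i, (a i - z) ⬝ᵥ (a i - z) = ρ)
    (hc : ∀ i, ∃ u v : Col ι, ev (a i) u = 1 ∧ ev (a i) v = 1 ∧
      ∀ j, j ≠ i → ev (a j) u = 0 ∨ ev (a j) v = 0) : TC a := by
  classical
  choose u v h1 h2 h3 using hc
  let Ψ : Col ι → Col ι → (ℝ ⊗[ℚ] ℝ →ₗ[ℚ] Col ι ⊗[ℚ] Col ι) := fun u v =>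
    TensorProduct.map ((LinearMap.toSpanSingleton ℝ _ u).restrictScalars ℚ)
      ((LinearMap.toSpanSingleton ℝ _ v).restrictScalars ℚ)
  have hΨ : ∀ u v (r s : ℝ), Ψ u v (r ⊗ₜ s) = (r • u) ⊗ₜ (s • v) := fun _ _ _ _ => rfl
  have k1 : ∀ u v x t, evT x (Ψ u v t) = (ev x u ⊗ₜ[ℚ] ev x v) * t := by
    intro u v x t
    induction t using TensorProduct.induction_on with
    | zero => simp
    | add t t' h h' => simp only [map_add, mul_add, h, h']
    | tmul r s => simp [hΨ, evT_tmul, mul_comm]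
  have k2 : ∀ u v t, gramT (Ψ u v t) = LinearMap.mul' ℚ ℝ t • vecMulVec u.1 v.1 := by
    intro u v t
    induction t using TensorProduct.induction_on with
    | zero => simp
    | add t t' h h' => simp only [map_add, add_smul, h, h']
    | tmul r s => ext i j; simp [hΨ, gramT_tmul, vecMulVec]; ring
  let c : ι → Col ι := fun α => (Pi.single α 1, -z α)
  let b0 : Col ι ⊗[ℚ] Col ι := ∑ α, c α ⊗ₜ c α
  have hb0 : gramT b0 = 1 := by
    simp only [b0]
    rw [map_sum]
    ext i j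
    simp [gramT_tmul, c, vecMulVec, Matrix.sum_apply, Pi.single_apply, one_apply, eq_comm]
  have hm : ∀ i, LinearMap.mul' ℚ ℝ (evT (a i) b0 - ρ ⊗ₜ 1) = 0 := by
    intro i
    simp only [b0]
    rw [map_sub, map_sum, map_sum, ← hs i]
    simp [evT_tmul, ev_apply, c, dotProduct, sub_eq_add_neg, Pi.single_apply]
  clear_value b0
  refine TC.of_const (b0 - ∑ i, Ψ (u i) (v i) (evT (a i) b0 - ρ ⊗ₜ 1)) (ρ ⊗ₜ 1) ?_ (fun j => ?_)
  · rw [map_sub, hb0, map_sum]
    simp only [k2, hm, zero_smul, Finset.sum_const_zero, sub_zero]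
  · rw [map_sub, map_sum, Finset.sum_eq_single j]
    · rw [k1, h1, h2, ← Algebra.TensorProduct.one_def, one_mul]; abel
    · intro i _ hij
      rw [k1]
      rcases h3 i j hij.symm with h | h <;> simp [h]
    · simp

lemma exists_col_three {p q r z : ι → ℝ} {ρ : ℝ} (hp : (p - z) ⬝ᵥ (p - z) = ρ)
    (hq : (q - z) ⬝ᵥ (q - z) = ρ) (hr : (r - z) ⬝ᵥ (r - z) = ρ) (hpq : p ≠ q) (hpr : p ≠ r)
    (hqr : q ≠ r) : ∃ u : Col ι, ev p u = 1 ∧ ev q u = 0 ∧ ev r u = 0 := by
  have hnot : p - q ∉ Submodule.span ℝ {q - r} := by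
    rw [Submodule.mem_span_singleton]
    rintro ⟨t, ht⟩
    have hw : (q - r) ⬝ᵥ (q - r) ≠ 0 := fun h => (sub_ne_zero.mpr hqr) (dotProduct_self_eq_zero.mp h)
    have e1 : p - z = (q - z) + t • (q - r) := by rw [ht]; abel
    have e2 : r - z = (q - z) - (q - r) := by abel
    rw [e1] at hp
    rw [e2] at hr
    generalize q - z = Q at hp hq hr
    generalize hW : q - r = w at hp hr hw ht
    simp only [add_dotProduct, dotProduct_add, sub_dotProduct, dotProduct_sub, smul_dotProduct,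
      dotProduct_smul, smul_eq_mul, dotProduct_comm w Q] at hp hr
    have : t * (t + 1) * (w ⬝ᵥ w) = 0 := by linear_combination hp - hq + t * (hr - hq)
    rcases mul_eq_zero.mp ((mul_eq_zero.mp this).resolve_right hw) with h | h
    · rw [h, zero_smul] at ht
      exact hpq (sub_eq_zero.mp ht.symm)
    · have : t = -1 := by linarith
      rw [this, ← hW] at ht
      apply hpr
      have := congrArg (· + q) ht
      simpa using this.symm
  obtain ⟨f, hf1, hf2⟩ := Submodule.exists_le_ker_of_notMem hnot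
  have hf3 : f (q - r) = 0 := hf2 (Submodule.mem_span_singleton_self _)
  have hdot : ∀ x, (fun α => f (Pi.single α 1)) ⬝ᵥ x = f x := by
    intro x
    rw [LinearMap.pi_apply_eq_sum_univ f x, dotProduct]
    refine Finset.sum_congr rfl (fun α _ => ?_)
    rw [smul_eq_mul, mul_comm]
    congr 2
    funext β
    simp [Pi.single_apply, eq_comm]
  rw [map_sub] at hf1 hf3
  refine ⟨(f p - f q)⁻¹ • ((fun α => f (Pi.single α 1), -f q) : Col ι), ?_, ?_, ?_⟩
  · rw [map_smul, ev_apply, hdot, smul_eq_mul, ← sub_eq_add_neg, inv_mul_cancel₀ hf1]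
  · rw [map_smul, ev_apply, hdot]; simp
  · rw [map_smul, ev_apply, hdot, show f r = f q by linarith]; simp

lemma TC_of_five [Fintype D] {a : D → ι → ℝ} (ha : Function.Injective a) (z : ι → ℝ) (ρ : ℝ)
    (hs : ∀ i, (a i - z) ⬝ᵥ (a i - z) = ρ) (h5 : Fintype.card D ≤ 5) : TC a := by
  classical
  have two : ∀ i (S : Finset D), i ∉ S → S.card ≤ 2 →
      ∃ u : Col ι, ev (a i) u = 1 ∧ ∀ j ∈ S, ev (a j) u = 0 := by
    intro i S hi hS
    have : S.card = 0 ∨ S.card = 1 ∨ S.card = 2 := by omega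
    rcases this with h | h | h
    · rw [Finset.card_eq_zero] at h
      subst h
      exact ⟨(0, 1), by simp [ev_apply], by simp⟩
    · obtain ⟨j, rfl⟩ := Finset.card_eq_one.mp h
      obtain ⟨u, h1, h2⟩ := exists_col (x := a i) (y := a j)
        (fun e => hi (by simp [ha e])) 1
      exact ⟨u, h1, by simpa using h2⟩
    · obtain ⟨j, k, hjk, rfl⟩ := Finset.card_eq_two.mp h
      obtain ⟨u, h1, h2, h3⟩ := exists_col_three (hs i) (hs j) (hs k)
        (fun e => hi (by simp [ha e])) (fun e => hi (by simp [ha e])) (fun e => hjk (ha e))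
      exact ⟨u, h1, by simp [h2, h3]⟩
  refine TC_of_cover z ρ hs (fun i => ?_)
  have hc : (Finset.univ.erase i).card ≤ 4 := by
    rw [Finset.card_erase_of_mem (Finset.mem_univ i), Finset.card_univ]; omega
  obtain ⟨S, hS1, hS2⟩ := Finset.exists_subset_card_eq (s := Finset.univ.erase i)
    (min_le_right 2 _)
  obtain ⟨u, u1, u2⟩ := two i S (fun h => by simpa using hS1 h) (by omega)
  obtain ⟨v, v1, v2⟩ := two i (Finset.univ.erase i \ S) (by simp) (by
    rw [Finset.card_sdiff_of_subset hS1]; omega)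
  refine ⟨u, v, u1, v1, fun j hj => ?_⟩
  by_cases h : j ∈ S
  · exact Or.inl (u2 j h)
  · exact Or.inr (v2 j (by simp [hj, h]))

theorem ramsey_of_five {d : ℕ} (A : Finset (EuclideanSpace ℝ (Fin d))) (hA : A.Nonempty)
    (h5 : A.card ≤ 5) (z : EuclideanSpace ℝ (Fin d)) (ρ : ℝ) (hs : ∀ x ∈ A, dist x z = ρ) :
    IsRamsey A := by
  apply ramsey_of_TC A hA
  refine TC_of_five (fun x y hxy => Subtype.ext (by ext α; exact congrFun hxy α))
    (fun α => z α) (ρ ^ 2) (fun x => ?_) (by simpa using h5)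
  rw [← hs x x.2, EuclideanSpace.dist_sq_eq]
  simp [dotProduct, Real.dist_eq, sq]

end Vale.Agent.P058
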