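import Vale.Agent.P058.Ore

/-!
Equivariant positive words which are nearly invariant under permutations of the positions.
-/

namespace Vale.Agent.P058

open Matrix

variable {ι : Type} [Fintype ι] {D : Type} {G : Type} [Group G]
variable {κ : Type} [Fintype κ] [DecidableEq κ]

/-- `Y` is a positive word map of degree `L` on vectors indexed by `κ`. -/
def EW (a : D → ι → ℝ) (θ : ℝ → G) (L : ℕ) (Y : (κ → ℝ) → G) : Prop :=
  ∀ W : κ → Col ι, Pat a θ ((L : ℝ) • ∑ k, gram (W k)) (fun i => Y (fun k => ev (a i) (W k)))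

variable {a : D → ι → ℝ} {θ : ℝ → G}

omit [DecidableEq κ] in
lemma EW.comp {L : ℕ} {Y : (κ → ℝ) → G} (h : EW a θ L Y) (σ : Equiv.Perm κ) :
    EW a θ L (fun z => Y (z ∘ σ)) := by
  intro W
  refine (h (W ∘ σ)).congr ?_ (fun _ => rfl)
  congr 1
  exact Equiv.sum_comp σ (fun k => gram (W k))

omit [DecidableEq κ] in
lemma EW.const_mul {L : ℕ} {Y : (κ → ℝ) → G} (h : EW a θ L Y) (c : G) :
    EW a θ L (fun z => c * Y z) := fun W => (h W).const_mul c

omit [DecidableEq κ] in
lemma EW.mul {L L' : ℕ} {Y Y' : (κ → ℝ) → G} (h : EW a θ L Y) (h' : EW a θ L' Y') :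
    EW a θ (L + L') (fun z => Y z * Y' z) := fun W =>
  ((h W).mul (h' W)).congr (by push_cast; rw [add_smul]) (fun _ => rfl)

omit [DecidableEq κ] in
lemma EW.list_prod {β : Type} (l : List β) {L : ℕ} (Y : β → (κ → ℝ) → G)
    (h : ∀ b ∈ l, EW a θ L (Y b)) :
    EW a θ (l.length * L) (fun z => (l.map (fun b => Y b z)).prod) := by
  induction l with
  | nil => intro W; simpa using Pat.one
  | cons b l ih =>
    have h1 := h b (by simp)
    have h2 := ih (fun k hk => h k (by simp [hk]))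
    have := h1.mul h2
    simp only [List.length_cons, List.map_cons, List.prod_cons]
    rwa [show (l.length + 1) * L = L + l.length * L by ring]

omit [DecidableEq κ] in
lemma EW.base : EW a θ 1 (fun z : κ → ℝ => (Finset.univ.toList.map (fun k => θ (z k))).prod) := by
  intro W
  refine (Pat.list_prod Finset.univ.toList (fun k => gram (W k))
    (fun k i => θ (ev (a i) (W k))) (fun k _ => Pat.col _)).congr ?_ (fun _ => rfl)
  simp

lemma exists_EW_lcs (c : ℕ) : ∃ (L : ℕ) (Y : (κ → ℝ) → G), 0 < L ∧ EW a θ L Y ∧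
    ∀ z (σ : Equiv.Perm κ), Y (z ∘ σ) * (Y z)⁻¹ ∈ (⊤ : Subgroup G).lowerCentralSeries c := by
  induction c with
  | zero => exact ⟨1, _, one_pos, EW.base, fun _ _ => trivial⟩
  | succ c ih =>
    obtain ⟨L, Y, hL, hY, hc⟩ := ih
    refine ⟨_, _, ?_, EW.list_prod (Finset.univ : Finset (Equiv.Perm κ)).toList
      (fun b z => Y (z ∘ b)) (fun b _ => hY.comp b), ?_⟩
    · apply Nat.mul_pos _ hL
      rw [Finset.length_toList]
      exact Finset.card_pos.mpr Finset.univ_nonempty
    · intro z σ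
      set N := (⊤ : Subgroup G).lowerCentralSeries (c + 1) with hN
      let π : G →* G ⧸ N := QuotientGroup.mk' N
      have hcen : ∀ g ∈ (⊤ : Subgroup G).lowerCentralSeries c, ∀ v : G, Commute (π g) (π v) := by
        intro g hg v
        rw [← commutatorElement_eq_one_iff_commute, ← map_commutatorElement]
        exact (QuotientGroup.eq_one_iff _).mpr
          (Subgroup.commutator_mem_commutator hg (Subgroup.mem_top v))
      have hcomm : ∀ b b' : Equiv.Perm κ, Commute (π (Y (z ∘ b))) (π (Y (z ∘ b'))) := by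
        intro b b'
        have e1 : Y (z ∘ b) = (Y (z ∘ b) * (Y z)⁻¹) * Y z := by group
        have e2 : Y (z ∘ b') = (Y (z ∘ b') * (Y z)⁻¹) * Y z := by group
        rw [e1, map_mul]
        refine Commute.mul_left (hcen _ (hc z b) _) ?_
        rw [e2, map_mul]
        exact Commute.mul_right (hcen _ (hc z b') _).symm (Commute.refl _)
      rw [← QuotientGroup.eq_one_iff]
      change π _ = 1
      rw [map_mul, map_inv, mul_inv_eq_one, map_list_prod, map_list_prod, List.map_map,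
        List.map_map]
      have hp : List.Perm ((Finset.univ : Finset (Equiv.Perm κ)).toList.map (fun b => σ * b))
          (Finset.univ : Finset (Equiv.Perm κ)).toList := by
        apply List.perm_of_nodup_nodup_toFinset_eq
        · exact (Finset.nodup_toList _).map (mul_right_injective σ)
        · exact Finset.nodup_toList _
        · ext b
          simp only [List.mem_toFinset, List.mem_map, Finset.mem_toList, Finset.mem_univ,
            true_and, iff_true]
          exact ⟨σ⁻¹ * b, by group⟩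
      have hp2 := (hp.map (fun b : Equiv.Perm κ => π (Y (z ∘ b)))).symm.prod_eq' (by
        rw [List.pairwise_map]
        exact List.pairwise_of_forall (fun b b' => hcomm b b'))
      rw [List.map_map] at hp2
      exact hp2.symm

lemma Ore.div_list' {S : Set D} {i : D} {β : Type} (l : List β) (x y : β → G) (t : β → ℝ)
    (h : ∀ k ∈ l, Ore a θ S i (x k * (y k)⁻¹) (t k)) :
    Ore a θ S i ((l.map x).prod * ((l.map y).prod)⁻¹) (l.map t).sum := by
  induction l with
  | nil => simpa using Ore.one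
  | cons k l ih =>
    have h1 := h k (by simp)
    have h2 := ih (fun k hk => h k (by simp [hk]))
    exact ((h1.div_mul h2).congr (by simp)).mono (le_of_eq (by simp))

/-- Oscillation of a word map on the orbit of `z`, measured in row `i`. -/
def Osc (a : D → ι → ℝ) (θ : ℝ → G) (i : D) (z : κ → ℝ) (Y : (κ → ℝ) → G) (t : ℝ) : Prop :=
  ∀ σ τ : Equiv.Perm κ, Ore a θ {j | j ≠ i} i (Y (z ∘ σ) * (Y (z ∘ τ))⁻¹) t

/-- The improvement operator. -/
noncomputable def improve (c : G) (Y : (κ → ℝ) → G) (z : κ → ℝ) : G :=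
  ((Finset.univ : Finset (Equiv.Perm κ)).toList.map
    (fun b : Equiv.Perm κ => (c * Y z) * (c * Y (z ∘ b)) * (c * Y ((z ∘ b) ∘ b)))).prod

lemma EW.improve {L : ℕ} {Y : (κ → ℝ) → G} (h : EW a θ L Y) (c : G) :
    EW a θ (Fintype.card (Equiv.Perm κ) * (L + L + L)) (improve c Y) := by
  have := EW.list_prod (Finset.univ : Finset (Equiv.Perm κ)).toList
    (fun (b : Equiv.Perm κ) z => (c * Y z) * (c * Y (z ∘ b)) * (c * Y ((z ∘ b) ∘ b)))
    (fun b _ => ((h.const_mul c).mul ((h.comp b).const_mul c)).mul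
      (((h.comp b).comp b).const_mul c))
  rw [Finset.length_toList, Finset.card_univ] at this
  exact this

omit [Fintype κ] [DecidableEq κ] in
lemma Osc.block {i : D} {z : κ → ℝ} {Y : (κ → ℝ) → G} {t : ℝ} (h : Osc a θ i z Y t) (c : G)
    (σ τ b : Equiv.Perm κ) :
    Ore a θ {j | j ≠ i} i
      (((c * Y (z ∘ σ)) * (c * Y ((z ∘ σ) ∘ b)) * (c * Y (((z ∘ σ) ∘ b) ∘ b))) *
        ((c * Y (z ∘ τ)) * (c * Y ((z ∘ τ) ∘ b)) * (c * Y (((z ∘ τ) ∘ b) ∘ b)))⁻¹) (3 * t) := by
  have k : ∀ σ τ : Equiv.Perm κ,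
      Ore a θ {j | j ≠ i} i ((c * Y (z ∘ σ)) * (c * Y (z ∘ τ))⁻¹) t :=
    fun σ τ => ((h σ τ).conj c).congr (by group)
  have := ((k σ τ).div_mul (k (σ * b) (τ * b))).div_mul (k (σ * b * b) (τ * b * b))
  exact this.mono (by linarith)

lemma Osc.improve_other {i : D} {z : κ → ℝ} {Y : (κ → ℝ) → G} {t : ℝ} (h : Osc a θ i z Y t)
    (c : G) : Osc a θ i z (improve c Y) (Fintype.card (Equiv.Perm κ) * (3 * t)) := by
  intro σ τ
  have := Ore.div_list (Finset.univ : Finset (Equiv.Perm κ)).toList _ _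
    (fun b _ => h.block c σ τ b)
  rw [Finset.length_toList, Finset.card_univ] at this
  exact this

lemma Osc.improve_self {i : D} {z : κ → ℝ} {Y : (κ → ℝ) → G} {t : ℝ} (h : Osc a θ i z Y t) :
    Osc a θ i z (improve (Y z)⁻¹ Y) (Fintype.card (Equiv.Perm κ) * (3 * t) - t) := by
  intro σ τ
  have k : ∀ σ : Equiv.Perm κ, Ore a θ {j | j ≠ i} i ((Y z)⁻¹ * Y (z ∘ σ)) t :=
    fun σ => ((h σ 1).conj (Y z)⁻¹).congr (by simp [mul_assoc])
  have := Ore.div_list' (a := a) (θ := θ) (S := {j | j ≠ i}) (i := i)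
    (Finset.univ : Finset (Equiv.Perm κ)).toList
    (fun b : Equiv.Perm κ => ((Y z)⁻¹ * Y (z ∘ σ)) * ((Y z)⁻¹ * Y ((z ∘ σ) ∘ b)) *
      ((Y z)⁻¹ * Y (((z ∘ σ) ∘ b) ∘ b)))
    (fun b : Equiv.Perm κ => ((Y z)⁻¹ * Y (z ∘ τ)) * ((Y z)⁻¹ * Y ((z ∘ τ) ∘ b)) *
      ((Y z)⁻¹ * Y (((z ∘ τ) ∘ b) ∘ b)))
    (fun b => 3 * t - if b = σ⁻¹ * τ then t else 0) (by
      intro b _
      by_cases hb : b = σ⁻¹ * τ
      · have hτ : τ = σ * b := by rw [hb]; group
        subst hτ
        rw [if_pos hb]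
        have := (k σ).mul ((k (σ * b * b * b)).inv.conj
          (((Y z)⁻¹ * Y ((z ∘ σ) ∘ b)) * ((Y z)⁻¹ * Y (((z ∘ σ) ∘ b) ∘ b))))
        refine (this.congr ?_).mono (by linarith)
        simp only [Equiv.Perm.coe_mul, Function.comp_assoc]
        group
      · rw [if_neg hb, sub_zero]
        exact h.block _ σ τ b)
  rw [Finset.sum_map_toList] at this
  refine this.mono (le_of_eq ?_)
  simp [Finset.card_univ]

end Vale.Agent.P058
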